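import Vale.Agent.Lib.P047.Defs

namespace Vale.Agent.Lib.P047

open Finset

variable {n : ℕ}

lemma sgn_true : sgn true = 1 := by simp [sgn]
lemma sgn_false : sgn false = -1 := by simp [sgn]

lemma sgn_mul_self (b : Bool) : sgn b * sgn b = 1 := by cases b <;> simp [sgn]

/-- Sum over the cube of a product of coordinate functions. -/
lemma sum_prod_cube (F : Fin n → Bool → ℝ) :
    ∑ x : Fin n → Bool, ∏ i, F i (x i) = ∏ i, (F i true + F i false) := by
  have h := Finset.prod_univ_sum (fun _ : Fin n => (Finset.univ : Finset Bool)) F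
  rw [Fintype.piFinset_univ] at h
  rw [← h]
  apply Finset.prod_congr rfl
  intro i _
  simp

/-- The product weight of the `t`-biased measure. -/
noncomputable def W (t : ℝ) (x : Fin n → Bool) : ℝ := ∏ i, ((1 + t * sgn (x i)) / 2)

/-- Expectation under the `t`-biased measure. -/
noncomputable def Et (t : ℝ) (g : (Fin n → Bool) → ℝ) : ℝ := ∑ x, W t x * g x

/-- The biased basis. -/
noncomputable def psi (t : ℝ) (S : Finset (Fin n)) (x : Fin n → Bool) : ℝ :=
  ∏ i ∈ S, (sgn (x i) - t)

lemma W_nonneg {t : ℝ} (ht : |t| ≤ 1) (x : Fin n → Bool) : 0 ≤ W t x := by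
  apply Finset.prod_nonneg
  intro i _
  obtain ⟨h1, h2⟩ := abs_le.mp ht
  cases x i <;> simp [sgn] <;> linarith

lemma prod_mem_eq (S : Finset (Fin n)) (g : Fin n → ℝ) :
    ∏ i ∈ S, g i = ∏ i, (if i ∈ S then g i else 1) := by
  rw [Finset.prod_ite_mem, Finset.univ_inter]

/-- Orthogonality of the biased basis. -/
lemma Et_psi_psi (t : ℝ) (S T : Finset (Fin n)) :
    Et t (fun x => psi t S x * psi t T x) = if S = T then (1 - t ^ 2) ^ S.card else 0 := by
  classical
  unfold Et
  have h1 : ∀ x : Fin n → Bool, W t x * (psi t S x * psi t T x) =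
      ∏ i, (((1 + t * sgn (x i)) / 2) * (if i ∈ S then sgn (x i) - t else 1) *
        (if i ∈ T then sgn (x i) - t else 1)) := by
    intro x
    unfold W psi
    rw [prod_mem_eq S, prod_mem_eq T, ← Finset.prod_mul_distrib, ← Finset.prod_mul_distrib]
    apply Finset.prod_congr rfl
    intro i _
    ring
  simp_rw [h1]
  rw [sum_prod_cube (fun i b => ((1 + t * sgn b) / 2) * (if i ∈ S then sgn b - t else 1) *
        (if i ∈ T then sgn b - t else 1))]
  simp only [sgn_true, sgn_false]
  have h2 : ∀ i : Fin n, ((1 + t * 1) / 2 * (if i ∈ S then 1 - t else 1) * (if i ∈ T then 1 - t else 1)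
      + (1 + t * -1) / 2 * (if i ∈ S then -1 - t else 1) * (if i ∈ T then -1 - t else 1))
      = if i ∈ S ∧ i ∈ T then 1 - t ^ 2 else if i ∈ S ∨ i ∈ T then 0 else 1 := by
    intro i
    by_cases hS : i ∈ S <;> by_cases hT : i ∈ T <;> simp [hS, hT] <;> ring
  simp_rw [h2]
  split_ifs with hST
  · subst hST
    simp only [and_self, or_self]
    have h3 : ∀ i : Fin n, (if i ∈ S then 1 - t ^ 2 else if i ∈ S then (0:ℝ) else 1)
        = if i ∈ S then 1 - t ^ 2 else 1 := by
      intro i
      by_cases h : i ∈ S <;> simp [h]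
    simp_rw [h3]
    rw [← prod_mem_eq S (fun _ => 1 - t ^ 2), Finset.prod_const]
  · obtain ⟨i, hi⟩ : ∃ i, ¬ (i ∈ S ↔ i ∈ T) := by
      by_contra hcon
      push Not at hcon
      exact hST (Finset.ext hcon)
    apply Finset.prod_eq_zero (Finset.mem_univ i)
    by_cases hS : i ∈ S <;> by_cases hT : i ∈ T <;> simp [hS, hT] at hi ⊢

lemma psi_empty (t : ℝ) (x : Fin n → Bool) : psi t (∅ : Finset (Fin n)) x = 1 := by
  simp [psi]

lemma Et_one (t : ℝ) : Et t (fun _ : Fin n → Bool => (1 : ℝ)) = 1 := by
  have := Et_psi_psi (n := n) t ∅ ∅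
  simpa [psi_empty] using this

lemma Et_psi (t : ℝ) (S : Finset (Fin n)) :
    Et t (fun x => psi t S x) = if S = ∅ then 1 else 0 := by
  have := Et_psi_psi t S ∅
  simp only [psi_empty, mul_one] at this
  rw [this]
  split_ifs with h
  · subst h; simp
  · rfl

/-- Parseval in the biased basis. -/
lemma Et_square (t : ℝ) (b : Finset (Fin n) → ℝ) :
    Et t (fun x => (∑ S, b S * psi t S x) ^ 2) = ∑ S, b S ^ 2 * (1 - t ^ 2) ^ S.card := by
  classical
  unfold Et
  have h1 : ∀ x : Fin n → Bool, W t x * (∑ S, b S * psi t S x) ^ 2 =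
      ∑ S, ∑ T, b S * b T * (W t x * (psi t S x * psi t T x)) := by
    intro x
    rw [sq, Finset.sum_mul_sum, Finset.mul_sum]
    apply Finset.sum_congr rfl
    intro S _
    rw [Finset.mul_sum]
    apply Finset.sum_congr rfl
    intro T _
    ring
  simp_rw [h1]
  rw [Finset.sum_comm]
  apply Finset.sum_congr rfl
  intro S _
  rw [Finset.sum_comm]
  have h2 : ∀ T, ∑ x, b S * b T * (W t x * (psi t S x * psi t T x))
      = b S * b T * (if S = T then (1 - t ^ 2) ^ S.card else 0) := by
    intro T
    rw [← Et_psi_psi, ← Finset.mul_sum]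
    rfl
  simp_rw [h2]
  rw [Finset.sum_eq_single S]
  · rw [if_pos rfl]; ring
  · intro T _ hT
    simp [Ne.symm hT]
  · intro h; exact absurd (Finset.mem_univ S) h

/-- Fourier inversion on the cube. -/
lemma fourier_inversion (f : (Fin n → Bool) → ℝ) (x : Fin n → Bool) :
    f x = ∑ T, fhat f T * chi T x := by
  classical
  unfold fhat
  have h1 : ∑ T : Finset (Fin n), (∑ y, f y * chi T y) / 2 ^ n * chi T x
      = (∑ y, f y * ∑ T : Finset (Fin n), chi T y * chi T x) / 2 ^ n := by
    rw [Finset.sum_div]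
    simp_rw [Finset.sum_div, Finset.sum_mul, Finset.mul_sum]
    rw [Finset.sum_comm]
    apply Finset.sum_congr rfl; intro y _
    rw [Finset.sum_div]
    apply Finset.sum_congr rfl; intro T _
    ring
  rw [h1]
  have h2 : ∀ y : Fin n → Bool, ∑ T : Finset (Fin n), chi T y * chi T x
      = if y = x then (2:ℝ) ^ n else 0 := by
    intro y
    have h3 : ∑ T : Finset (Fin n), chi T y * chi T x
        = ∏ i, (1 + sgn (y i) * sgn (x i)) := by
      rw [Finset.prod_one_add, Finset.powerset_univ]
      apply Finset.sum_congr rfl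
      intro T _
      unfold chi
      rw [Finset.prod_mul_distrib]
    rw [h3]
    split_ifs with hyx
    · subst hyx
      simp [sgn_mul_self]
      norm_num
    · obtain ⟨i, hi⟩ : ∃ i, y i ≠ x i := by
        by_contra hcon
        push Not at hcon
        exact hyx (funext hcon)
      apply Finset.prod_eq_zero (Finset.mem_univ i)
      revert hi
      cases y i <;> cases x i <;> simp [sgn]
  simp_rw [h2]
  simp

/-- Coefficients of `f` in the biased basis. -/
noncomputable def acoef (f : (Fin n → Bool) → ℝ) (t : ℝ) (S : Finset (Fin n)) : ℝ :=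
  ∑ T ∈ univ.filter (fun T => S ⊆ T), fhat f T * t ^ (T \ S).card

lemma chi_eq_sum_psi (t : ℝ) (T : Finset (Fin n)) (x : Fin n → Bool) :
    chi T x = ∑ S ∈ T.powerset, psi t S x * t ^ (T \ S).card := by
  classical
  unfold chi psi
  have : ∀ i ∈ T, sgn (x i) = (sgn (x i) - t) + t := by intro i _; ring
  rw [Finset.prod_congr rfl this, Finset.prod_add]
  apply Finset.sum_congr rfl
  intro S _
  rw [Finset.prod_const]

/-- Expansion of `f` in the biased basis. -/
lemma expansion (f : (Fin n → Bool) → ℝ) (t : ℝ) (x : Fin n → Bool) :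
    f x = ∑ S, acoef f t S * psi t S x := by
  classical
  conv_lhs => rw [fourier_inversion f x]
  simp_rw [chi_eq_sum_psi t _ x, Finset.mul_sum]
  unfold acoef
  simp_rw [Finset.sum_mul]
  rw [Finset.sum_comm' (t' := univ) (s' := fun S => univ.filter (fun T => S ⊆ T))]
  · apply Finset.sum_congr rfl; intro S _
    apply Finset.sum_congr rfl; intro T _
    ring
  · intro T S
    simp [Finset.mem_powerset]

end Vale.Agent.Lib.P047
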