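import Mathlib

namespace Vale.Agent.Lib.P047

open Finset

/-- The sign attached to a Boolean value: `true` is `1`, `false` is `-1`. -/
def sgn (b : Bool) : ℝ := if b then 1 else -1

variable {n : ℕ}

/-- The Walsh character `χ_S(x) = ∏_{i ∈ S} x_i` on the discrete cube `{-1,1}^n`,
where the cube is written as `Fin n → Bool` through `sgn`. -/
noncomputable def chi (S : Finset (Fin n)) (x : Fin n → Bool) : ℝ := ∏ i ∈ S, sgn (x i)

/-- The Fourier coefficient `E[f(X) χ_S(X)]` for `X` uniform on the cube. -/
noncomputable def fhat (f : (Fin n → Bool) → ℝ) (S : Finset (Fin n)) : ℝ :=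
  (∑ x, f x * chi S x) / 2 ^ n

/-- `f` is Boolean: it only takes the values `1` and `-1`. -/
def IsBooleanFn (f : (Fin n → Bool) → ℝ) : Prop := ∀ x, f x = 1 ∨ f x = -1

/-- `f` has Fourier degree at most `d`: all Fourier coefficients above level `d` vanish. -/
def DegreeLE (f : (Fin n → Bool) → ℝ) (d : ℕ) : Prop := ∀ S : Finset (Fin n), d < S.card → fhat f S = 0

end Vale.Agent.Lib.P047
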