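import Vale.Agent.Lib.P047.JuntaDefs

namespace Vale.Agent.Lib.P047

open Finset

lemma sum_prod_bool {n : ℕ} (ψ : Fin n → Bool → ℝ) :
    ∑ x : Fin n → Bool, ∏ i, ψ i (x i) = ∏ i, (ψ i true + ψ i false) := by
  have h := Finset.prod_univ_sum (fun _ : Fin n => (univ : Finset Bool)) ψ
  rw [Fintype.piFinset_univ] at h
  rw [← h]
  simp

/-- Per-coordinate indicator. -/
def coordInd (o : Option Bool) (b : Bool) : ℝ := if o = none ∨ o = some b then 1 else 0

lemma cubeInd_eq_prod {n : ℕ} (c : Fin n → Option Bool) (x : Fin n → Bool) :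
    cubeInd c x = ∏ i, coordInd (c i) (x i) := by
  unfold cubeInd coordInd
  rw [Finset.prod_ite_zero]
  simp

/-- Per-coordinate fixedness. -/
def fixedBit (o : Option Bool) : ℕ := if o ≠ none then 1 else 0

/-- Per-coordinate signed value: `0` for free, `1` for `true`, `-1` for `false`. -/
def signBit : Option Bool → ℝ
  | none => 0
  | some true => 1
  | some false => -1

lemma cubeCodim_eq_sum {n : ℕ} (c : Fin n → Option Bool) :
    cubeCodim c = ∑ i, fixedBit (c i) := by
  unfold cubeCodim fixedBit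
  rw [Finset.card_filter]

/-- Sum of the signed values of a subcube. -/
noncomputable def cubeWeight {n : ℕ} (c : Fin n → Option Bool) : ℝ := ∑ i, signBit (c i)

/-- mean of a cube times a coordinate sign -/
lemma mean_cube_sign {n : ℕ} (c : Fin n → Option Bool) (j : Fin n) :
    cubeMean (fun x => cubeInd c x * bitSign (x j)) = (1 / 2 : ℝ) ^ cubeCodim c * signBit (c j) := by
  have key : ∀ x : Fin n → Bool, cubeInd c x * bitSign (x j) =
      ∏ i, (coordInd (c i) (x i) * (if i = j then bitSign (x i) else 1)) := by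
    intro x
    rw [Finset.prod_mul_distrib, cubeInd_eq_prod, Finset.prod_ite_eq' univ j]
    simp
  unfold cubeMean
  simp_rw [key]
  rw [sum_prod_bool (fun i b => coordInd (c i) b * (if i = j then bitSign b else 1))]
  have h2 : (2 : ℝ) ^ n = ∏ _i : Fin n, (2 : ℝ) := by simp
  rw [h2, ← Finset.prod_div_distrib, cubeCodim_eq_sum, ← Finset.prod_pow_eq_pow_sum]
  have h3 : ∀ i : Fin n,
      (coordInd (c i) true * (if i = j then bitSign true else 1) +
        coordInd (c i) false * (if i = j then bitSign false else 1)) / 2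
      = (1 / 2 : ℝ) ^ fixedBit (c i) * (if i = j then signBit (c i) else 1) := by
    intro i
    by_cases hij : i = j
    · subst hij
      rcases hc : c i with _ | b
      · simp [coordInd, fixedBit, signBit, bitSign]
      · cases b <;> simp [coordInd, fixedBit, signBit, bitSign] <;> norm_num
    · rcases hc : c i with _ | b
      · simp [coordInd, fixedBit, hij]
      · cases b <;> simp [coordInd, fixedBit, hij]
  rw [Finset.prod_congr rfl (fun i _ => h3 i), Finset.prod_mul_distrib, Finset.prod_ite_eq' univ j]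
  simp

lemma mean_cube {n : ℕ} (c : Fin n → Option Bool) :
    cubeMean (cubeInd c) = (1 / 2 : ℝ) ^ cubeCodim c := by
  unfold cubeMean
  simp_rw [cubeInd_eq_prod]
  rw [sum_prod_bool (fun i b => coordInd (c i) b)]
  have h2 : (2 : ℝ) ^ n = ∏ _i : Fin n, (2 : ℝ) := by simp
  rw [h2, ← Finset.prod_div_distrib, cubeCodim_eq_sum, ← Finset.prod_pow_eq_pow_sum]
  refine Finset.prod_congr rfl (fun i _ => ?_)
  rcases hc : c i with _ | b
  · simp [coordInd, fixedBit]
  · cases b <;> simp [coordInd, fixedBit]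

/-- Exponentially tilted density on the cube. -/
noncomputable def tiltCoord (s : ℝ) (b : Bool) : ℝ := Real.exp (s * bitSign b) / Real.cosh s

noncomputable def tilt {n : ℕ} (s : ℝ) (x : Fin n → Bool) : ℝ := ∏ i, tiltCoord s (x i)

lemma tiltCoord_nonneg (s : ℝ) (b : Bool) : 0 ≤ tiltCoord s b := by
  unfold tiltCoord
  exact div_nonneg (Real.exp_pos _).le (Real.cosh_pos s).le

lemma tiltCoord_sum (s : ℝ) : tiltCoord s true + tiltCoord s false = 2 := by
  unfold tiltCoord bitSign
  simp only [if_true, Bool.false_eq_true, if_false, mul_one, mul_neg]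
  rw [← add_div, Real.cosh_eq]
  have : Real.exp s + Real.exp (-s) ≠ 0 := by positivity
  field_simp

lemma tilt_nonneg {n : ℕ} (s : ℝ) (x : Fin n → Bool) : 0 ≤ tilt s x :=
  Finset.prod_nonneg (fun i _ => tiltCoord_nonneg s (x i))

lemma mean_tilt {n : ℕ} (s : ℝ) : cubeMean (tilt (n := n) s) = 1 := by
  unfold cubeMean tilt
  rw [sum_prod_bool (fun _ b => tiltCoord s b)]
  simp [tiltCoord_sum]

/-- lower bound for the tilted mass of a subcube -/
lemma mean_cube_tilt_lower {n : ℕ} (c : Fin n → Option Bool) (s : ℝ) :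
    (1 / 2 : ℝ) ^ cubeCodim c * Real.exp (s * cubeWeight c - (cubeCodim c : ℝ) * (s ^ 2 / 2))
      ≤ cubeMean (fun x => cubeInd c x * tilt s x) := by
  have key : ∀ x : Fin n → Bool, cubeInd c x * tilt s x =
      ∏ i, (coordInd (c i) (x i) * tiltCoord s (x i)) := by
    intro x
    rw [Finset.prod_mul_distrib, cubeInd_eq_prod]
    rfl
  unfold cubeMean
  simp_rw [key]
  rw [sum_prod_bool (fun i b => coordInd (c i) b * tiltCoord s b)]
  have h2 : (2 : ℝ) ^ n = ∏ _i : Fin n, (2 : ℝ) := by simp
  rw [h2, ← Finset.prod_div_distrib, cubeCodim_eq_sum, ← Finset.prod_pow_eq_pow_sum]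
  have hexp : Real.exp (s * cubeWeight c -
      ((∑ i, fixedBit (c i) : ℕ) : ℝ) * (s ^ 2 / 2)) =
      ∏ i, Real.exp (s * signBit (c i) - (fixedBit (c i) : ℝ) * (s ^ 2 / 2)) := by
    rw [← Real.exp_sum]
    congr 1
    unfold cubeWeight
    rw [Finset.sum_sub_distrib, Finset.mul_sum]
    push_cast
    rw [Finset.sum_mul]
  rw [hexp, ← Finset.prod_mul_distrib]
  refine Finset.prod_le_prod ?_ ?_
  · intro i _
    positivity
  · intro i _
    have hcosh := Real.cosh_le_exp_half_sq s
    have hcpos := Real.cosh_pos s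
    rcases hc : c i with _ | b
    · simp only [coordInd, fixedBit, signBit]
      simp only [true_or, if_true]
      have := tiltCoord_sum s
      simp only [ne_eq, not_true_eq_false, if_false, pow_zero, one_mul, mul_zero, Nat.cast_zero,
        zero_mul, sub_zero, Real.exp_zero, mul_one]
      rw [this]
      norm_num
    · have hb : ∀ e : ℝ, (Real.exp e / Real.cosh s) ≥ Real.exp (e - s ^ 2 / 2) := by
        intro e
        rw [Real.exp_sub, ge_iff_le]
        exact div_le_div_of_nonneg_left (Real.exp_pos e).le hcpos hcosh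
      cases b
      · have h1 := hb (-s)
        simp only [coordInd, fixedBit, signBit, tiltCoord, bitSign]
        simp
        have : (Real.exp (-s) / Real.cosh s) / 2 ≥ Real.exp (-s - s ^ 2 / 2) / 2 := by
          linarith [h1]
        linarith [this, (by ring_nf : (2:ℝ)⁻¹ * Real.exp (-s - s ^ 2 / 2) =
          Real.exp (-s - s ^ 2 / 2) / 2)]
      · have h1 := hb s
        simp only [coordInd, fixedBit, signBit, tiltCoord, bitSign]
        simp
        have : (Real.exp s / Real.cosh s) / 2 ≥ Real.exp (s - s ^ 2 / 2) / 2 := by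
          linarith [h1]
        linarith [this, (by ring_nf : (2:ℝ)⁻¹ * Real.exp (s - s ^ 2 / 2) =
          Real.exp (s - s ^ 2 / 2) / 2)]

/-- Analytic core: the exponential bound for all `s`, with Jensen and optimisation in `s`, gives the
quadratic bound on the mean of `w`. -/
lemma analytic_core {ι : Type*} [Fintype ι] (a w h : ι → ℝ) (ha : ∀ c, 0 ≤ a c)
    (μ K : ℝ) (hμ : 0 < μ) (hμsum : ∑ c, a c = μ) (hK0 : 0 ≤ K)
    (hK : ∑ c, a c * h c ≤ K * μ)
    (hbound : ∀ s : ℝ, ∑ c, a c * Real.exp (s * w c - h c * (s ^ 2 / 2)) ≤ 1) :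
    (∑ c, a c * w c) ^ 2 ≤ 2 * μ ^ 2 * Real.log (1 / μ) * K := by
  set W := ∑ c, a c * w c with hW
  set A := Real.log (1 / μ) with hA
  -- for all s : s W / μ - K s^2 / 2 ≤ A
  have hmain : ∀ s : ℝ, s * (W / μ) - K * (s ^ 2 / 2) ≤ A := by
    intro s
    set ybar := s * (W / μ) - (∑ c, a c * h c) / μ * (s ^ 2 / 2) with hybar
    have hjensen : μ * Real.exp ybar ≤ 1 := by
      refine le_trans ?_ (hbound s)
      have hterm : ∀ c, a c * (Real.exp ybar * (1 + (s * w c - h c * (s ^ 2 / 2) - ybar))) ≤
          a c * Real.exp (s * w c - h c * (s ^ 2 / 2)) := by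
        intro c
        refine mul_le_mul_of_nonneg_left ?_ (ha c)
        have := Real.add_one_le_exp (s * w c - h c * (s ^ 2 / 2) - ybar)
        have h2 : Real.exp (s * w c - h c * (s ^ 2 / 2)) =
            Real.exp ybar * Real.exp (s * w c - h c * (s ^ 2 / 2) - ybar) := by
          rw [← Real.exp_add]; congr 1; ring
        rw [h2]
        refine mul_le_mul_of_nonneg_left ?_ (Real.exp_pos _).le
        linarith
      refine le_trans (le_of_eq ?_) (Finset.sum_le_sum (fun c _ => hterm c))
      have hexpand : ∑ c, a c * (Real.exp ybar * (1 + (s * w c - h c * (s ^ 2 / 2) - ybar))) =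
          Real.exp ybar * ((∑ c, a c) * (1 - ybar) + s * (∑ c, a c * w c)
            - (s ^ 2 / 2) * (∑ c, a c * h c)) := by
        simp only [Finset.mul_sum, Finset.sum_mul, ← Finset.sum_add_distrib,
          ← Finset.sum_sub_distrib]
        refine Finset.sum_congr rfl (fun c _ => ?_)
        ring
      rw [hexpand, hμsum, ← hW, hybar]
      field_simp
      ring
    have hlog : ybar ≤ A := by
      have h3 : Real.exp ybar ≤ 1 / μ := by
        rw [le_div_iff₀ hμ]
        linarith
      have := Real.log_le_log (Real.exp_pos _) h3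
      rwa [Real.log_exp] at this
    have hh : (∑ c, a c * h c) / μ ≤ K := by
      rw [div_le_iff₀ hμ]
      exact hK
    have hs2 : 0 ≤ s ^ 2 / 2 := by positivity
    have : s * (W / μ) - K * (s ^ 2 / 2) ≤ ybar := by
      rw [hybar]
      nlinarith [mul_le_mul_of_nonneg_right hh hs2]
    linarith
  set l := W / μ with hl
  have hWl : W = μ * l := by rw [hl]; field_simp
  have hl2 : l ^ 2 ≤ 2 * A * K := by
    rcases eq_or_lt_of_le hK0 with hK00 | hKpos
    · -- K = 0 : linear bound for all s forces l = 0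
      have hl0 : l = 0 := by
        by_contra hne
        have h4 := hmain ((A + 1) / l)
        rw [← hK00] at h4
        have : (A + 1) / l * l = A + 1 := by field_simp
        nlinarith
      rw [hl0, ← hK00]
      simp
    · have h4 := hmain (l / K)
      have h5 : l / K * l - K * ((l / K) ^ 2 / 2) = l ^ 2 / (2 * K) := by
        field_simp
        ring
      rw [h5] at h4
      have h6 : l ^ 2 / (2 * K) * (2 * K) = l ^ 2 := by
        field_simp
      have h7 : 0 < 2 * K := by linarith
      nlinarith [mul_le_mul_of_nonneg_right h4 h7.le]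
  rw [hWl]
  have : (μ * l) ^ 2 = μ ^ 2 * l ^ 2 := by ring
  rw [this]
  have hμ2 : 0 ≤ μ ^ 2 := by positivity
  nlinarith [mul_le_mul_of_nonneg_left hl2 hμ2]

lemma exp_bound (μ : ℝ) (hμ : 0 < μ) : μ ^ 2 * Real.log (1 / μ) ≤ 1 / (2 * Real.exp 1) := by
  set A := Real.log (1 / μ) with hA
  have hmu : μ = Real.exp (-A) := by
    rw [hA, Real.log_div one_ne_zero hμ.ne', Real.log_one, zero_sub, neg_neg, Real.exp_log hμ]
  have h1 := Real.add_one_le_exp (2 * A - 1)
  have h2 : Real.exp (2 * A - 1) = Real.exp (2 * A) / Real.exp 1 := by rw [Real.exp_sub]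
  have h3 : μ ^ 2 * Real.exp (2 * A) = 1 := by
    rw [hmu, sq, ← Real.exp_add, ← Real.exp_add]
    have : -A + -A + 2 * A = 0 := by ring
    rw [this, Real.exp_zero]
  have hE := Real.exp_pos 1
  have hmu2 : 0 ≤ μ ^ 2 := by positivity
  rw [le_div_iff₀ (by positivity)]
  have h4 : 2 * A ≤ Real.exp (2 * A) / Real.exp 1 := by
    rw [← h2]; linarith
  have h5 : 2 * A * Real.exp 1 ≤ Real.exp (2 * A) := by
    rwa [le_div_iff₀ hE] at h4
  calc μ ^ 2 * A * (2 * Real.exp 1) = μ ^ 2 * (2 * A * Real.exp 1) := by ring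
    _ ≤ μ ^ 2 * Real.exp (2 * A) := mul_le_mul_of_nonneg_left h5 hmu2
    _ = 1 := h3

/-- The main bound. -/
theorem junta_main {n : ℕ} (f : (Fin n → Bool) → ℝ) (hf : ∀ x, f x = 1 ∨ f x = -1)
    (α : (Fin n → Option Bool) → ℝ) (hα : ∀ c, 0 ≤ α c)
    (hrep : ∀ x, (1 + f x) / 2 = ∑ c, α c * cubeInd c x)
    (K : ℝ) (hK0 : 0 ≤ K)
    (hK : ∑ c, α c * (1 / 2 : ℝ) ^ cubeCodim c * (cubeCodim c : ℝ)
      ≤ K * cubeMean (fun x => (1 + f x) / 2)) :
    levelOneSum f ^ 2 ≤ 8 * (cubeMean (fun x => (1 + f x) / 2)) ^ 2 *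
        Real.log (1 / cubeMean (fun x => (1 + f x) / 2)) * K ∧
      levelOneSum f ^ 2 ≤ 4 / Real.exp 1 * K := by
  classical
  set F : (Fin n → Bool) → ℝ := fun x => (1 + f x) / 2 with hF
  set μ := cubeMean F with hμdef
  -- weights
  set a : (Fin n → Option Bool) → ℝ := fun c => α c * (1 / 2 : ℝ) ^ cubeCodim c with ha
  have ha0 : ∀ c, 0 ≤ a c := fun c => mul_nonneg (hα c) (by positivity)
  have hFrep : F = fun x => ∑ c, α c * cubeInd c x := by
    funext x; exact hrep x
  -- mean of a linear combination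
  have hmeanlin : ∀ (g : (Fin n → Option Bool) → (Fin n → Bool) → ℝ),
      cubeMean (fun x => ∑ c, α c * g c x) = ∑ c, α c * cubeMean (g c) := by
    intro g
    unfold cubeMean
    rw [Finset.sum_comm, Finset.sum_div]
    refine Finset.sum_congr rfl (fun c _ => ?_)
    rw [← Finset.mul_sum, mul_div_assoc]
  have hμsum : ∑ c, a c = μ := by
    rw [hμdef, hFrep, hmeanlin]
    refine Finset.sum_congr rfl (fun c _ => ?_)
    rw [mean_cube]
  -- the sum of signs has mean zero
  have hsignmean : ∀ j : Fin n, cubeMean (fun x : Fin n → Bool => bitSign (x j)) = 0 := by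
    intro j
    have := mean_cube_sign (n := n) (fun _ => none) j
    have h1 : ∀ x : Fin n → Bool, cubeInd (fun _ => none) x * bitSign (x j) = bitSign (x j) := by
      intro x
      simp [cubeInd]
    simp_rw [h1] at this
    rw [this]
    simp [signBit]
  -- level one sum in terms of weights
  have hL : levelOneSum f = 2 * ∑ c, a c * cubeWeight c := by
    unfold levelOneSum
    have hj : ∀ j : Fin n, cubeMean (fun x => f x * bitSign (x j)) =
        2 * ∑ c, a c * signBit (c j) := by
      intro j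
      have h1 : (fun x : Fin n → Bool => f x * bitSign (x j)) =
          fun x => 2 * (∑ c, α c * (cubeInd c x * bitSign (x j))) - bitSign (x j) := by
        funext x
        have h2 := hrep x
        simp_rw [← mul_assoc, ← Finset.sum_mul, ← h2]
        ring
      have h3 : cubeMean (fun x : Fin n → Bool =>
          2 * (∑ c, α c * (cubeInd c x * bitSign (x j))) - bitSign (x j)) =
          2 * cubeMean (fun x : Fin n → Bool => ∑ c, α c * (cubeInd c x * bitSign (x j)))
            - cubeMean (fun x : Fin n → Bool => bitSign (x j)) := by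
        unfold cubeMean
        rw [Finset.sum_sub_distrib, ← Finset.mul_sum, sub_div, mul_div_assoc]
      rw [h1, h3, hsignmean, sub_zero, hmeanlin (fun c x => cubeInd c x * bitSign (x j))]
      congr 1
      refine Finset.sum_congr rfl (fun c _ => ?_)
      rw [mean_cube_sign, ha]
      ring
    rw [Finset.sum_congr rfl (fun j _ => hj j), ← Finset.mul_sum]
    congr 1
    rw [Finset.sum_comm]
    refine Finset.sum_congr rfl (fun c _ => ?_)
    rw [← Finset.mul_sum]
    rfl
  -- F is between 0 and 1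
  have hF01 : ∀ x, 0 ≤ F x ∧ F x ≤ 1 := by
    intro x
    rcases hf x with h | h <;> simp only [hF, h] <;> norm_num
  -- mu is nonnegative
  have hμ0 : 0 ≤ μ := by
    rw [← hμsum]
    exact Finset.sum_nonneg (fun c _ => ha0 c)
  -- the tilted inequality
  have hbound : ∀ s : ℝ, ∑ c, a c * Real.exp (s * cubeWeight c - (cubeCodim c : ℝ) * (s ^ 2 / 2)) ≤ 1 := by
    intro s
    have h1 : ∑ c, α c * cubeMean (fun x => cubeInd c x * tilt s x) ≤ 1 := by
      rw [← hmeanlin (fun c x => cubeInd c x * tilt s x)]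
      have h2 : ∀ x : Fin n → Bool, ∑ c, α c * (cubeInd c x * tilt s x) = F x * tilt s x := by
        intro x
        simp_rw [← mul_assoc, ← Finset.sum_mul]
        simp only [hF]
        rw [hrep x]
      simp_rw [h2]
      rw [← mean_tilt (n := n) s]
      unfold cubeMean
      apply div_le_div_of_nonneg_right _ (by positivity)
      refine Finset.sum_le_sum (fun x _ => ?_)
      have := (hF01 x).2
      nlinarith [tilt_nonneg s x]
    refine le_trans ?_ h1
    refine Finset.sum_le_sum (fun c _ => ?_)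
    have h3 := mean_cube_tilt_lower c s
    simp only [ha]
    calc α c * (1 / 2 : ℝ) ^ cubeCodim c *
          Real.exp (s * cubeWeight c - (cubeCodim c : ℝ) * (s ^ 2 / 2))
        = α c * ((1 / 2 : ℝ) ^ cubeCodim c *
          Real.exp (s * cubeWeight c - (cubeCodim c : ℝ) * (s ^ 2 / 2))) := by ring
      _ ≤ α c * cubeMean (fun x => cubeInd c x * tilt s x) :=
          mul_le_mul_of_nonneg_left h3 (hα c)
  -- case analysis on mu
  rcases eq_or_lt_of_le hμ0 with hμz | hμpos
  · -- mu = 0 : all weights vanish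
    have ha00 : ∀ c, a c = 0 := by
      intro c
      have := (Finset.sum_eq_zero_iff_of_nonneg (fun c _ => ha0 c)).1
        (by rw [hμsum]; exact hμz.symm) c (Finset.mem_univ c)
      exact this
    have hL0 : levelOneSum f = 0 := by
      rw [hL]
      simp [ha00]
    rw [hL0, ← hμz]
    constructor
    · simp
    · have : 0 ≤ 4 / Real.exp 1 * K := by positivity
      simpa using this
  · -- mu > 0
    have hcore := analytic_core a cubeWeight (fun c => (cubeCodim c : ℝ)) ha0 μ K hμpos hμsum hK0
      (by simpa [ha] using hK) hbound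
    have h1 : levelOneSum f ^ 2 ≤ 8 * μ ^ 2 * Real.log (1 / μ) * K := by
      rw [hL]
      nlinarith [hcore]
    refine ⟨h1, le_trans h1 ?_⟩
    have h2 := exp_bound μ hμpos
    have hE := Real.exp_pos 1
    have h3 : 8 * (μ ^ 2 * Real.log (1 / μ)) ≤ 4 / Real.exp 1 := by
      have h4 : 8 * (1 / (2 * Real.exp 1)) = 4 / Real.exp 1 := by
        field_simp
        norm_num
      linarith
    have h5 := mul_le_mul_of_nonneg_right h3 hK0
    nlinarith [h5]

/-- The total mass of a conical representation. -/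
lemma mean_rep {n : ℕ} (F : (Fin n → Bool) → ℝ)
    (α : (Fin n → Option Bool) → ℝ)
    (hrep : ∀ x, F x = ∑ c, α c * cubeInd c x) :
    cubeMean F = ∑ c, α c * (1 / 2 : ℝ) ^ cubeCodim c := by
  have hF : F = fun x => ∑ c, α c * cubeInd c x := funext hrep
  rw [hF]
  unfold cubeMean
  rw [Finset.sum_comm, Finset.sum_div]
  refine Finset.sum_congr rfl (fun c _ => ?_)
  rw [← Finset.mul_sum, mul_div_assoc]
  congr 1
  exact mean_cube c

/-- Fourier coefficients of a subcube vanish above its codimension. -/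
lemma mean_cube_char_zero {n : ℕ} (c : Fin n → Option Bool) (S : Finset (Fin n))
    (hS : cubeCodim c < S.card) :
    cubeMean (fun x => cubeInd c x * ∏ i ∈ S, bitSign (x i)) = 0 := by
  classical
  -- some coordinate of S is free in c
  obtain ⟨j, hjS, hjc⟩ : ∃ j ∈ S, c j = none := by
    by_contra hcon
    push Not at hcon
    have hsub : S ⊆ univ.filter (fun i => c i ≠ none) := by
      intro i hi
      simp [hcon i hi]
    exact absurd (Finset.card_le_card hsub) (not_le.mpr hS)
  have key : ∀ x : Fin n → Bool, cubeInd c x * ∏ i ∈ S, bitSign (x i) =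
      ∏ i, (coordInd (c i) (x i) * (if i ∈ S then bitSign (x i) else 1)) := by
    intro x
    rw [Finset.prod_mul_distrib, cubeInd_eq_prod]
    congr 1
    rw [Finset.prod_ite, Finset.prod_const_one, mul_one]
    congr 1
    ext i
    simp
  unfold cubeMean
  simp_rw [key]
  rw [sum_prod_bool (fun i b => coordInd (c i) b * (if i ∈ S then bitSign b else 1))]
  rw [Finset.prod_eq_zero (Finset.mem_univ j)]
  · simp
  · simp [hjS, hjc, coordInd, bitSign]

lemma mean_char_zero_of_rep {n : ℕ} (f : (Fin n → Bool) → ℝ)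
    (α : (Fin n → Option Bool) → ℝ)
    (hrep : ∀ x, (1 + f x) / 2 = ∑ c, α c * cubeInd c x)
    (k : ℕ) (hk : ∀ c, α c ≠ 0 → cubeCodim c ≤ k)
    (S : Finset (Fin n)) (hS : k < S.card) :
    cubeMean (fun x => f x * ∏ i ∈ S, bitSign (x i)) = 0 := by
  classical
  have h1 : (fun x : Fin n → Bool => f x * ∏ i ∈ S, bitSign (x i)) =
      fun x => 2 * (∑ c, α c * (cubeInd c x * ∏ i ∈ S, bitSign (x i)))
        - (cubeInd (fun _ => none) x * ∏ i ∈ S, bitSign (x i)) := by
    funext x
    have h2 := hrep x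
    simp_rw [← mul_assoc, ← Finset.sum_mul, ← h2]
    have h3 : cubeInd (n := n) (fun _ => none) x = 1 := by simp [cubeInd]
    rw [h3]
    ring
  have hnone : cubeCodim (n := n) (fun _ => none) < S.card := by
    have : cubeCodim (n := n) (fun _ => none) = 0 := by simp [cubeCodim]
    omega
  rw [h1]
  unfold cubeMean
  rw [Finset.sum_sub_distrib, ← Finset.mul_sum, sub_div, mul_div_assoc]
  have h4 := mean_cube_char_zero (n := n) (fun _ => none) S hnone
  unfold cubeMean at h4
  rw [h4, sub_zero]
  rw [Finset.sum_comm, Finset.sum_div]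
  rw [Finset.sum_eq_zero, mul_zero]
  intro c _
  by_cases hc : α c = 0
  · simp [hc]
  · have h5 := mean_cube_char_zero c S (lt_of_le_of_lt (hk c hc) hS)
    unfold cubeMean at h5
    rw [← Finset.mul_sum, mul_div_assoc, h5, mul_zero]

/-- The bound with the worst-case codimension. -/
theorem junta_width {n : ℕ} (f : (Fin n → Bool) → ℝ) (hf : ∀ x, f x = 1 ∨ f x = -1)
    (α : (Fin n → Option Bool) → ℝ) (hα : ∀ c, 0 ≤ α c)
    (hrep : ∀ x, (1 + f x) / 2 = ∑ c, α c * cubeInd c x)
    (k : ℕ) (hk : ∀ c, α c ≠ 0 → cubeCodim c ≤ k) :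
    levelOneSum f ^ 2 ≤ 4 / Real.exp 1 * k := by
  refine (junta_main f hf α hα hrep (k : ℝ) (Nat.cast_nonneg k) ?_).2
  rw [mean_rep _ α hrep, Finset.mul_sum]
  refine Finset.sum_le_sum (fun c _ => ?_)
  by_cases hc : α c = 0
  · simp [hc]
  · have h1 : (cubeCodim c : ℝ) ≤ k := by exact_mod_cast hk c hc
    have h2 : 0 ≤ α c * (1 / 2 : ℝ) ^ cubeCodim c := mul_nonneg (hα c) (by positivity)
    calc α c * (1 / 2 : ℝ) ^ cubeCodim c * (cubeCodim c : ℝ)
        ≤ α c * (1 / 2 : ℝ) ^ cubeCodim c * (k : ℝ) := mul_le_mul_of_nonneg_left h1 h2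
      _ = (k : ℝ) * (α c * (1 / 2 : ℝ) ^ cubeCodim c) := by ring

end Vale.Agent.Lib.P047
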