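import Mathlib

/-!
Definitions for the conical junta bound on the level-one Fourier sum of Boolean functions.
The cube is `Fin n → Bool`, with bit `b` read as the sign `bitSign b` in `{1,-1}`.
-/

namespace Vale.Agent.Lib.P047

open Finset

/-- The sign of a bit: `true` is `1`, `false` is `-1`. -/
def bitSign (b : Bool) : ℝ := if b then 1 else -1

/-- Uniform expectation on the cube `Fin n → Bool`. -/
noncomputable def cubeMean {n : ℕ} (g : (Fin n → Bool) → ℝ) : ℝ :=
  (∑ x, g x) / 2 ^ n

/-- The level-one Fourier sum `∑ i, f̂({i}) = E[f(X) (X_1 + ... + X_n)]`. -/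
noncomputable def levelOneSum {n : ℕ} (f : (Fin n → Bool) → ℝ) : ℝ :=
  ∑ i, cubeMean (fun x => f x * bitSign (x i))

/-- Indicator of the subcube given by `c`: coordinate `i` is free when `c i = none` and is fixed to
the bit `b` when `c i = some b`. -/
def cubeInd {n : ℕ} (c : Fin n → Option Bool) (x : Fin n → Bool) : ℝ :=
  if ∀ i, c i = none ∨ c i = some (x i) then 1 else 0

/-- Codimension of the subcube given by `c`: the number of fixed coordinates. -/
def cubeCodim {n : ℕ} (c : Fin n → Option Bool) : ℕ :=
  (univ.filter (fun i => c i ≠ none)).card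

end Vale.Agent.Lib.P047
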