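import Vale.Agent.Lib.P047.Biased

namespace Vale.Agent.Lib.P047

open Finset

variable {n : ℕ}

/-- Split a sum over all subsets according to membership of `i`. -/
lemma sum_split (i : Fin n) (g : Finset (Fin n) → ℝ) :
    ∑ S, g S = ∑ S ∈ univ.filter (fun S => i ∉ S), (g S + g (insert i S)) := by
  classical
  rw [Finset.sum_add_distrib]
  rw [← Finset.sum_filter_add_sum_filter_not univ (fun S => i ∉ S) g]
  congr 1
  simp only [not_not]
  apply Finset.sum_nbij' (fun S => S.erase i) (fun S => insert i S)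
  · intro S hS
    simp
  · intro S hS
    simp
  · intro S hS
    simp only [mem_filter, mem_univ, true_and] at hS
    exact Finset.insert_erase hS
  · intro S hS
    simp only [mem_filter, mem_univ, true_and] at hS
    exact Finset.erase_insert hS
  · intro S hS
    simp only [mem_filter, mem_univ, true_and] at hS
    rw [Finset.insert_erase hS]

/-- The discrete derivative in direction `i`. -/
noncomputable def Dd (f : (Fin n → Bool) → ℝ) (i : Fin n) (x : Fin n → Bool) : ℝ :=
  (f (Function.update x i true) - f (Function.update x i false)) / 2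

lemma psi_update_of_not_mem (t : ℝ) {S : Finset (Fin n)} {i : Fin n} (h : i ∉ S)
    (x : Fin n → Bool) (b : Bool) : psi t S (Function.update x i b) = psi t S x := by
  unfold psi
  apply Finset.prod_congr rfl
  intro j hj
  have : j ≠ i := fun e => h (e ▸ hj)
  simp [Function.update_of_ne this]

lemma psi_insert_update (t : ℝ) {S : Finset (Fin n)} {i : Fin n} (h : i ∉ S)
    (x : Fin n → Bool) (b : Bool) :
    psi t (insert i S) (Function.update x i b) = (sgn b - t) * psi t S x := by
  classical
  have h1 := psi_update_of_not_mem t h x b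
  unfold psi at h1 ⊢
  rw [Finset.prod_insert h, h1]
  simp

/-- Expansion of the discrete derivative. -/
lemma Dd_expansion (f : (Fin n → Bool) → ℝ) (t : ℝ) (i : Fin n) (x : Fin n → Bool) :
    Dd f i x = ∑ S, (if i ∉ S then acoef f t (insert i S) else 0) * psi t S x := by
  classical
  have key : ∀ b : Bool, f (Function.update x i b) =
      ∑ S ∈ univ.filter (fun S => i ∉ S),
        (acoef f t S * psi t S x + acoef f t (insert i S) * ((sgn b - t) * psi t S x)) := by
    intro b
    rw [expansion f t (Function.update x i b), sum_split i]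
    apply Finset.sum_congr rfl
    intro S hS
    simp only [mem_filter, mem_univ, true_and] at hS
    rw [psi_update_of_not_mem t hS, psi_insert_update t hS]
  unfold Dd
  rw [key true, key false, ← Finset.sum_sub_distrib, Finset.sum_div]
  rw [Finset.sum_filter]
  apply Finset.sum_congr rfl
  intro S _
  by_cases hS : i ∉ S
  · simp only [hS, not_false_eq_true, if_true, sgn_true, sgn_false]
    ring
  · simp [hS]

/-- The derivative of a Boolean function takes values in `{-1,0,1}`. -/
lemma abs_Dd_eq_sq {f : (Fin n → Bool) → ℝ} (hb : IsBooleanFn f) (i : Fin n) (x : Fin n → Bool) :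
    |Dd f i x| = (Dd f i x) ^ 2 := by
  unfold Dd
  rcases hb (Function.update x i true) with h1 | h1 <;>
  rcases hb (Function.update x i false) with h2 | h2 <;>
  rw [h1, h2] <;> norm_num

/-- The diagonal polynomial of `f`. -/
noncomputable def qpoly (f : (Fin n → Bool) → ℝ) (t : ℝ) : ℝ :=
  ∑ T, fhat f T * t ^ T.card

lemma acoef_empty (f : (Fin n → Bool) → ℝ) (t : ℝ) : acoef f t ∅ = qpoly f t := by
  unfold acoef qpoly
  simp

/-- The first derivative of the diagonal polynomial. -/
noncomputable def dqpoly (f : (Fin n → Bool) → ℝ) (t : ℝ) : ℝ :=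
  ∑ T, fhat f T * (T.card * t ^ (T.card - 1))

lemma hasDerivAt_qpoly (f : (Fin n → Bool) → ℝ) (t : ℝ) :
    HasDerivAt (qpoly f) (dqpoly f t) t := by
  unfold qpoly dqpoly
  apply HasDerivAt.fun_sum
  intro T _
  exact ((hasDerivAt_id t).pow T.card).const_mul (fhat f T) |>.congr_deriv (by simp)

lemma dqpoly_eq_sum (f : (Fin n → Bool) → ℝ) (t : ℝ) :
    dqpoly f t = ∑ i, acoef f t {i} := by
  classical
  unfold dqpoly acoef
  have h1 : ∀ i : Fin n, ∑ T ∈ univ.filter (fun T => ({i} : Finset (Fin n)) ⊆ T),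
      fhat f T * t ^ (T \ {i}).card
      = ∑ T, (if i ∈ T then fhat f T * t ^ (T.card - 1) else 0) := by
    intro i
    rw [Finset.sum_filter]
    apply Finset.sum_congr rfl
    intro T _
    by_cases h : i ∈ T
    · have h2 : (T \ {i}).card = T.card - 1 := by
        rw [Finset.card_sdiff_of_subset (by simpa using h)]; simp
      simp [h, h2]
    · simp [h]
  simp_rw [h1]
  rw [Finset.sum_comm]
  apply Finset.sum_congr rfl
  intro T _
  rw [Finset.sum_ite_mem, Finset.univ_inter, Finset.sum_const, nsmul_eq_mul]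
  ring

lemma acoef_eq_zero {f : (Fin n → Bool) → ℝ} {d : ℕ} (hdeg : DegreeLE f d) (t : ℝ)
    {S : Finset (Fin n)} (hS : d < S.card) : acoef f t S = 0 := by
  unfold acoef
  apply Finset.sum_eq_zero
  intro T hT
  simp only [mem_filter, mem_univ, true_and] at hT
  rw [hdeg T (lt_of_lt_of_le hS (Finset.card_le_card hT))]
  simp

/-- The energy of `f` at level `T`. -/
noncomputable def ecoef (f : (Fin n → Bool) → ℝ) (t : ℝ) (T : Finset (Fin n)) : ℝ :=
  acoef f t T ^ 2 * (1 - t ^ 2) ^ T.card

lemma sum_ecoef {f : (Fin n → Bool) → ℝ} (hb : IsBooleanFn f) (t : ℝ) :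
    ∑ T, ecoef f t T = 1 := by
  unfold ecoef
  rw [← Et_square t (acoef f t)]
  have h : ∀ x, (∑ S, acoef f t S * psi t S x) ^ 2 = 1 := by
    intro x
    rw [← expansion f t x]
    rcases hb x with h | h <;> rw [h] <;> norm_num
  simp_rw [h]
  exact Et_one t

lemma Et_Dd (f : (Fin n → Bool) → ℝ) (t : ℝ) (i : Fin n) :
    Et t (Dd f i) = acoef f t {i} := by
  classical
  have h : Dd f i = fun x => ∑ S, (if i ∉ S then acoef f t (insert i S) else 0) * psi t S x := by
    funext x; exact Dd_expansion f t i x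
  unfold Et
  rw [h]
  simp_rw [Finset.mul_sum]
  rw [Finset.sum_comm]
  have h2 : ∀ S : Finset (Fin n), ∑ x, W t x * ((if i ∉ S then acoef f t (insert i S) else 0) * psi t S x)
      = (if i ∉ S then acoef f t (insert i S) else 0) * (if S = ∅ then 1 else 0) := by
    intro S
    rw [← Et_psi]
    unfold Et
    rw [Finset.mul_sum]
    apply Finset.sum_congr rfl
    intro x _
    ring
  simp_rw [h2]
  rw [Finset.sum_eq_single ∅]
  · simp
  · intro S _ hS
    simp [hS]
  · intro h; exact absurd (Finset.mem_univ _) h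

lemma Et_Dd_sq (f : (Fin n → Bool) → ℝ) (t : ℝ) (i : Fin n) :
    (1 - t ^ 2) * Et t (fun x => (Dd f i x) ^ 2) = ∑ T, if i ∈ T then ecoef f t T else 0 := by
  classical
  have h : (fun x => (Dd f i x) ^ 2) =
      fun x => (∑ S, (if i ∉ S then acoef f t (insert i S) else 0) * psi t S x) ^ 2 := by
    funext x; rw [Dd_expansion f t i x]
  rw [h, Et_square, sum_split i (fun T => if i ∈ T then ecoef f t T else 0), Finset.mul_sum,
    Finset.sum_filter]
  apply Finset.sum_congr rfl
  intro S _
  by_cases hS : i ∈ S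
  · simp [hS]
  · simp only [hS, not_false_eq_true, if_true, if_false, Finset.mem_insert_self, zero_add]
    unfold ecoef
    rw [Finset.card_insert_of_notMem hS, pow_succ]
    ring

/-- The key inequality: `(1 - t²) |q'(t)| ≤ d (1 - q(t)²)` for Boolean `f` of degree at most `d`. -/
theorem key_ineq {f : (Fin n → Bool) → ℝ} {d : ℕ} (hb : IsBooleanFn f) (hdeg : DegreeLE f d)
    {t : ℝ} (ht : |t| ≤ 1) :
    (1 - t ^ 2) * |dqpoly f t| ≤ d * (1 - qpoly f t ^ 2) := by
  classical
  have hA : 0 ≤ 1 - t ^ 2 := by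
    have := sq_le_one_iff_abs_le_one t |>.mpr ht
    linarith
  have he : ∀ T, 0 ≤ ecoef f t T := fun T => by
    unfold ecoef
    exact mul_nonneg (sq_nonneg _) (pow_nonneg hA _)
  -- step 1: bound by the influences
  have h1 : |dqpoly f t| ≤ ∑ i, Et t (fun x => (Dd f i x) ^ 2) := by
    rw [dqpoly_eq_sum]
    refine (Finset.abs_sum_le_sum_abs _ _).trans ?_
    apply Finset.sum_le_sum
    intro i _
    rw [← Et_Dd]
    unfold Et
    refine (Finset.abs_sum_le_sum_abs _ _).trans ?_
    apply Finset.sum_le_sum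
    intro x _
    rw [abs_mul, abs_of_nonneg (W_nonneg ht x), abs_Dd_eq_sq hb]
  -- step 2: energies
  have h2 : (1 - t ^ 2) * ∑ i, Et t (fun x => (Dd f i x) ^ 2)
      = ∑ T, (T.card : ℝ) * ecoef f t T := by
    rw [Finset.mul_sum]
    simp_rw [Et_Dd_sq]
    rw [Finset.sum_comm]
    apply Finset.sum_congr rfl
    intro T _
    rw [Finset.sum_ite_mem, Finset.univ_inter, Finset.sum_const, nsmul_eq_mul]
  -- step 3: degree bound
  have h3 : ∑ T, (T.card : ℝ) * ecoef f t T ≤ d * (1 - qpoly f t ^ 2) := by
    have h4 : ecoef f t ∅ = qpoly f t ^ 2 := by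
      unfold ecoef
      rw [acoef_empty]; simp
    rw [← sum_ecoef hb t, ← h4, ← Finset.sum_erase_eq_sub (Finset.mem_univ _), Finset.mul_sum]
    rw [← Finset.sum_erase univ (a := ∅) (f := fun T : Finset (Fin n) => (T.card : ℝ) * ecoef f t T)
      (by simp)]
    apply Finset.sum_le_sum
    intro T _
    by_cases hT : d < T.card
    · have : ecoef f t T = 0 := by
        unfold ecoef
        rw [acoef_eq_zero hdeg t hT]; simp
      rw [this]; simp
    · apply mul_le_mul_of_nonneg_right _ (he T)
      exact_mod_cast not_lt.mp hT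
  calc (1 - t ^ 2) * |dqpoly f t| ≤ (1 - t ^ 2) * ∑ i, Et t (fun x => (Dd f i x) ^ 2) :=
        mul_le_mul_of_nonneg_left h1 hA
    _ = ∑ T, (T.card : ℝ) * ecoef f t T := h2
    _ ≤ _ := h3

/-- `q(t)` is bounded by one in absolute value. -/
lemma qpoly_sq_le_one {f : (Fin n → Bool) → ℝ} (hb : IsBooleanFn f) {t : ℝ} (ht : |t| ≤ 1) :
    qpoly f t ^ 2 ≤ 1 := by
  classical
  have hA : 0 ≤ 1 - t ^ 2 := by
    have := sq_le_one_iff_abs_le_one t |>.mpr ht
    linarith
  have he : ∀ T, 0 ≤ ecoef f t T := fun T => by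
    unfold ecoef
    exact mul_nonneg (sq_nonneg _) (pow_nonneg hA _)
  have h4 : ecoef f t ∅ = qpoly f t ^ 2 := by
    unfold ecoef
    rw [acoef_empty]; simp
  rw [← sum_ecoef hb t, ← h4]
  exact Finset.single_le_sum (fun T _ => he T) (Finset.mem_univ _)

/-- If `q(t)² = 1` at an interior point then `f` is constant. -/
lemma const_of_qpoly_sq {f : (Fin n → Bool) → ℝ} (hb : IsBooleanFn f) {t : ℝ} (ht : |t| < 1)
    (h : qpoly f t ^ 2 = 1) (x : Fin n → Bool) : f x = qpoly f t := by
  classical
  have hA : 0 < 1 - t ^ 2 := by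
    have := sq_lt_one_iff_abs_lt_one t |>.mpr ht
    linarith
  have he : ∀ T, 0 ≤ ecoef f t T := fun T => by
    unfold ecoef
    exact mul_nonneg (sq_nonneg _) (pow_nonneg hA.le _)
  have h4 : ecoef f t ∅ = qpoly f t ^ 2 := by
    unfold ecoef
    rw [acoef_empty]; simp
  have h5 : ∑ T ∈ univ.erase ∅, ecoef f t T = 0 := by
    rw [Finset.sum_erase_eq_sub (Finset.mem_univ _), sum_ecoef hb t, h4, h]; simp
  have h6 := (Finset.sum_eq_zero_iff_of_nonneg (fun T _ => he T)).mp h5
  rw [expansion f t x, Finset.sum_eq_single ∅]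
  · rw [acoef_empty, psi_empty, mul_one]
  · intro T _ hT
    have h7 := h6 T (Finset.mem_erase.mpr ⟨hT, Finset.mem_univ _⟩)
    unfold ecoef at h7
    have h8 : acoef f t T = 0 := by
      have := (mul_eq_zero.mp h7).resolve_right (pow_ne_zero _ hA.ne')
      exact pow_eq_zero_iff (two_ne_zero) |>.mp this
    rw [h8, zero_mul]
  · intro h; exact absurd (Finset.mem_univ _) h

end Vale.Agent.Lib.P047
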