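import Mathlib

namespace Vale.Agent.Lib.P047

open Set Real

lemma odds_alg {a b Q : ℝ} (hb1 : -1 < b) (hb2 : b < 1) (hQ : 1 ≤ Q)
    (h : (1 + a) * (1 - b) ≤ Q ^ 2 * ((1 - a) * (1 + b))) :
    (a - b) * (Q + 1) ≤ 2 * (Q - 1) := by
  by_contra hcon
  push Not at hcon
  have hQ1 : 0 < Q + 1 := by linarith
  set c : ℝ := 2 * (Q - 1) / (Q + 1) with hc
  have hc1 : c * (Q + 1) = 2 * (Q - 1) := by
    rw [hc]; field_simp
  have hab : b + c < a := by
    have : c * (Q + 1) < (a - b) * (Q + 1) := by linarith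
    have := lt_of_mul_lt_mul_right this hQ1.le
    linarith
  have hkey : Q ^ 2 * ((1 - (b + c)) * (1 + b)) ≤ (1 + (b + c)) * (1 - b) := by
    -- write everything over (Q+1)
    have h1 : (1 + (b + c)) * (Q + 1) = (1 + b) * (Q + 1) + 2 * (Q - 1) := by
      rw [← hc1]; ring
    have h2 : (1 - (b + c)) * (Q + 1) = (1 - b) * (Q + 1) - 2 * (Q - 1) := by
      rw [← hc1]; ring
    have h3 : 0 ≤ (1 + (b + c)) * (1 - b) * (Q + 1) - Q ^ 2 * ((1 - (b + c)) * (1 + b)) * (Q + 1) := by
      have e1 : (1 + (b + c)) * (1 - b) * (Q + 1) = ((1 + b) * (Q + 1) + 2 * (Q - 1)) * (1 - b) := by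
        rw [← h1]; ring
      have e2 : Q ^ 2 * ((1 - (b + c)) * (1 + b)) * (Q + 1)
          = Q ^ 2 * (((1 - b) * (Q + 1) - 2 * (Q - 1)) * (1 + b)) := by
        rw [← h2]; ring
      rw [e1, e2]
      have e3 : ((1 + b) * (Q + 1) + 2 * (Q - 1)) * (1 - b)
            - Q ^ 2 * (((1 - b) * (Q + 1) - 2 * (Q - 1)) * (1 + b))
          = (Q - 1) * (b * (Q + 1) + (Q - 1)) ^ 2 := by ring
      rw [e3]
      apply mul_nonneg (by linarith) (sq_nonneg _)
    have h4 : 0 ≤ ((1 + (b + c)) * (1 - b) - Q ^ 2 * ((1 - (b + c)) * (1 + b))) * (Q + 1) := by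
      linarith
    have h5 := nonneg_of_mul_nonneg_left h4 hQ1
    linarith
  have h1 : (1 + (b + c)) * (1 - b) < (1 + a) * (1 - b) := by
    apply mul_lt_mul_of_pos_right _ (by linarith); linarith
  have h2 : Q ^ 2 * ((1 - a) * (1 + b)) < Q ^ 2 * ((1 - (b + c)) * (1 + b)) := by
    apply mul_lt_mul_of_pos_left
    · apply mul_lt_mul_of_pos_right _ (by linarith); linarith
    · positivity
  linarith

/-- Integrated form of the log-odds Lipschitz bound. -/
theorem odds_bound {q q' : ℝ → ℝ} {d : ℕ} {s : ℝ} (hs0 : 0 < s) (hs1 : s < 1)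
    (hq : ∀ t, HasDerivAt q (q' t) t)
    (hq1 : ∀ t ∈ Icc (-s) s, -1 < q t ∧ q t < 1)
    (hkey : ∀ t ∈ Icc (-s) s, (1 - t ^ 2) * |q' t| ≤ d * (1 - q t ^ 2)) :
    (q s - q (-s)) * (((1 + s) / (1 - s)) ^ d + 1) ≤ 2 * (((1 + s) / (1 - s)) ^ d - 1) := by
  set L : ℝ → ℝ := fun t => log (1 + q t) - log (1 - q t) - d * log (1 + t) + d * log (1 - t) with hL
  have hderiv : ∀ t ∈ Icc (-s) s, HasDerivAt L
      (q' t / (1 + q t) - (-q' t) / (1 - q t) - d * (1 / (1 + t)) + d * ((-1) / (1 - t))) t := by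
    intro t ht
    obtain ⟨h1, h2⟩ := hq1 t ht
    have ht1 : 0 < 1 + t := by linarith [ht.1]
    have ht2 : 0 < 1 - t := by linarith [ht.2]
    have e1 : HasDerivAt (fun t => 1 + q t) (q' t) t := (hq t).const_add 1
    have e2 : HasDerivAt (fun t => 1 - q t) (-q' t) t := (hq t).const_sub 1
    have e3 : HasDerivAt (fun t : ℝ => 1 + t) 1 t := (hasDerivAt_id t).const_add 1
    have e4 : HasDerivAt (fun t : ℝ => 1 - t) (-1) t := (hasDerivAt_id t).const_sub 1
    have l1 := e1.log (by linarith)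
    have l2 := e2.log (by linarith)
    have l3 := (e3.log ht1.ne').const_mul (d : ℝ)
    have l4 := (e4.log ht2.ne').const_mul (d : ℝ)
    exact ((l1.sub l2).sub l3).add l4
  have hanti : AntitoneOn L (Icc (-s) s) := by
    apply antitoneOn_of_deriv_nonpos (convex_Icc _ _)
    · intro t ht; exact (hderiv t ht).continuousAt.continuousWithinAt
    · intro t ht
      rw [interior_Icc] at ht
      exact (hderiv t ⟨ht.1.le, ht.2.le⟩).differentiableAt.differentiableWithinAt
    · intro t ht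
      rw [interior_Icc] at ht
      have ht' : t ∈ Icc (-s) s := ⟨ht.1.le, ht.2.le⟩
      rw [(hderiv t ht').deriv]
      obtain ⟨h1, h2⟩ := hq1 t ht'
      have ht1 : 0 < 1 + t := by linarith [ht.1]
      have ht2 : 0 < 1 - t := by linarith [ht.2]
      have hk := hkey t ht'
      have hpos1 : 0 < 1 + q t := by linarith
      have hpos2 : 0 < 1 - q t := by linarith
      have e : q' t / (1 + q t) - (-q' t) / (1 - q t) - d * (1 / (1 + t)) + d * ((-1) / (1 - t))
          = 2 * ((1 - t ^ 2) * q' t - d * (1 - q t ^ 2)) /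
            ((1 + q t) * (1 - q t) * ((1 + t) * (1 - t))) := by
        field_simp
        ring
      rw [e]
      apply div_nonpos_of_nonpos_of_nonneg
      · have h3 : (1 - t ^ 2) * q' t ≤ (1 - t ^ 2) * |q' t| := by
          apply mul_le_mul_of_nonneg_left (le_abs_self _)
          nlinarith
        linarith
      · positivity
  have hmain := hanti ⟨le_refl (-s), by linarith⟩ ⟨by linarith, le_refl s⟩ (by linarith : -s ≤ s)
  simp only [hL] at hmain
  obtain ⟨ha1, ha2⟩ := hq1 s ⟨by linarith, le_refl s⟩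
  obtain ⟨hb1, hb2⟩ := hq1 (-s) ⟨le_refl (-s), by linarith⟩
  have hps : 0 < 1 + s := by linarith
  have hms : 0 < 1 - s := by linarith
  set Q : ℝ := ((1 + s) / (1 - s)) ^ d with hQ
  have hQ1 : 1 ≤ Q := by
    rw [hQ]
    apply one_le_pow₀
    rw [one_le_div hms]; linarith
  have hlogQ : log Q = d * (log (1 + s) - log (1 - s)) := by
    rw [hQ, log_pow, log_div hps.ne' hms.ne']
  have h1 : log ((1 + q s) * (1 - q (-s))) ≤ log (Q ^ 2 * ((1 - q s) * (1 + q (-s)))) := by
    rw [log_mul (by linarith) (by linarith), log_mul (by positivity) (by nlinarith),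
      log_mul (by linarith) (by linarith), log_pow, hlogQ]
    have e5 : (1 : ℝ) + -s = 1 - s := by ring
    have e6 : (1 : ℝ) - -s = 1 + s := by ring
    rw [e5, e6] at hmain
    push_cast
    linarith
  have h2 := (log_le_log_iff (by apply mul_pos <;> linarith) (by
    apply mul_pos (by positivity); apply mul_pos <;> linarith)).mp h1
  exact odds_alg hb1 hb2 hQ1 h2

end Vale.Agent.Lib.P047
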