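import Mathlib

namespace Vale.Agent.Lib.P047

open Finset Real

/-- The interpolation nodes. -/
noncomputable def theta (d j : ℕ) : ℝ := (2 * j + 1) * π / (2 * d)

/-- The interpolation weights. -/
noncomputable def lam (d j : ℕ) : ℝ := 1 / (4 * d * sin (theta d j / 2) ^ 2)

/-- The signed weights. -/
noncomputable def slam (d j : ℕ) : ℝ := (-1) ^ j * lam d j

lemma theta_reflect {d j : ℕ} (hd : 0 < d) (hj : j < 2 * d) :
    theta d (2 * d - 1 - j) = 2 * π - theta d j := by
  have hd' : (d : ℝ) ≠ 0 := by positivity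
  unfold theta
  have h : ((2 * d - 1 - j : ℕ) : ℝ) = 2 * d - 1 - j := by
    rw [Nat.cast_sub (by omega), Nat.cast_sub (by omega)]
    push_cast; ring
  rw [h]
  field_simp
  ring

lemma lam_reflect {d j : ℕ} (hd : 0 < d) (hj : j < 2 * d) :
    lam d (2 * d - 1 - j) = lam d j := by
  unfold lam
  rw [theta_reflect hd hj]
  have : sin ((2 * π - theta d j) / 2) = sin (theta d j / 2) := by
    have : (2 * π - theta d j) / 2 = π - theta d j / 2 := by ring
    rw [this, sin_pi_sub]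
  rw [this]

lemma sign_reflect {d j : ℕ} (hj : j < 2 * d) :
    ((-1 : ℝ)) ^ (2 * d - 1 - j) = - (-1) ^ j := by
  have h : 2 * d - 1 - j + j + 1 = 2 * d := by omega
  have h2 : ((-1 : ℝ)) ^ (2 * d - 1 - j + j + 1) = 1 := by
    rw [h, pow_mul]; simp
  rw [pow_succ, pow_add] at h2
  have h3 : ((-1:ℝ)) ^ j * (-1) ^ j = 1 := by
    rw [← mul_pow]; simp
  have h4 : ((-1:ℝ)) ^ (2 * d - 1 - j) * (-1) ^ j = -1 := by linarith
  calc ((-1:ℝ)) ^ (2 * d - 1 - j) = ((-1:ℝ)) ^ (2 * d - 1 - j) * ((-1) ^ j * (-1) ^ j) := by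
        rw [h3]; ring
    _ = (((-1:ℝ)) ^ (2 * d - 1 - j) * (-1) ^ j) * (-1) ^ j := by ring
    _ = _ := by rw [h4]; ring

lemma slam_reflect {d j : ℕ} (hd : 0 < d) (hj : j < 2 * d) :
    slam d (2 * d - 1 - j) = - slam d j := by
  unfold slam
  rw [lam_reflect hd hj, sign_reflect hj]
  ring

/-- Base cosine sum. -/
noncomputable def Sc (d : ℕ) (m : ℤ) : ℝ :=
  ∑ j ∈ range (2 * d), slam d j * cos (m * theta d j)

/-- Base sine sum. -/
noncomputable def Ss (d : ℕ) (m : ℤ) : ℝ :=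
  ∑ j ∈ range (2 * d), slam d j * sin (m * theta d j)

lemma Sc_eq_zero {d : ℕ} (hd : 0 < d) (m : ℤ) : Sc d m = 0 := by
  have h : Sc d m = - Sc d m := by
    conv_lhs => unfold Sc
    rw [← Finset.sum_range_reflect]
    unfold Sc
    rw [← Finset.sum_neg_distrib]
    apply Finset.sum_congr rfl
    intro j hj
    have hj' : j < 2 * d := Finset.mem_range.mp hj
    rw [slam_reflect hd hj', theta_reflect hd hj']
    have : cos (m * (2 * π - theta d j)) = cos (m * theta d j) := by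
      have h1 : (m : ℝ) * (2 * π - theta d j) = (m : ℝ) * (2 * π) - m * theta d j := by ring
      rw [h1, cos_sub]
      have h2 : cos ((m : ℝ) * (2 * π)) = 1 := by
        exact_mod_cast Real.cos_int_mul_two_pi m
      have h3 : sin ((m : ℝ) * (2 * π)) = 0 := by
        have h4 : (m : ℝ) * (2 * π) = ((2 * m : ℤ) : ℝ) * π := by push_cast; ring
        rw [h4]; exact Real.sin_int_mul_pi _
      rw [h2, h3]; ring
    rw [this]; ring
  linarith

lemma Ss_neg (d : ℕ) (m : ℤ) : Ss d (-m) = - Ss d m := by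
  unfold Ss
  rw [← Finset.sum_neg_distrib]
  apply Finset.sum_congr rfl
  intro j _
  push_cast
  rw [neg_mul, sin_neg]; ring

lemma sin_sq_half_pos {d j : ℕ} (hd : 0 < d) (hj : j < 2 * d) : 0 < sin (theta d j / 2) := by
  have hd' : (0 : ℝ) < d := by positivity
  apply sin_pos_of_pos_of_lt_pi
  · unfold theta; positivity
  · unfold theta
    have : ((2 * j + 1 : ℝ)) < 4 * d := by
      have : (j : ℝ) + 1 ≤ 2 * d := by exact_mod_cast hj
      linarith
    rw [div_div, div_lt_iff₀ (by positivity)]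
    nlinarith [pi_pos]

lemma lam_pos {d j : ℕ} (hd : 0 < d) (hj : j < 2 * d) : 0 < lam d j := by
  unfold lam
  have := sin_sq_half_pos hd hj
  have hd' : (0 : ℝ) < d := by positivity
  positivity

lemma lam_mul_sin_sq {d j : ℕ} (hd : 0 < d) (hj : j < 2 * d) :
    lam d j * (4 * sin (theta d j / 2) ^ 2) = 1 / d := by
  unfold lam
  have := (sin_sq_half_pos hd hj).ne'
  have hd' : (d : ℝ) ≠ 0 := by positivity
  field_simp

/-- The alternating sine sum. -/
noncomputable def Bs (d : ℕ) (m : ℤ) : ℝ :=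
  ∑ j ∈ range (2 * d), (-1) ^ j * sin (m * theta d j)

lemma second_diff {d : ℕ} (hd : 0 < d) (m : ℤ) :
    Ss d (m + 1) + Ss d (m - 1) - 2 * Ss d m = - (1 / d) * Bs d m := by
  unfold Ss Bs
  rw [← Finset.sum_add_distrib, Finset.mul_sum, ← Finset.sum_sub_distrib, Finset.mul_sum]
  apply Finset.sum_congr rfl
  intro j hj
  have hj' : j < 2 * d := Finset.mem_range.mp hj
  have h1 : ((m + 1 : ℤ) : ℝ) * theta d j = m * theta d j + theta d j := by push_cast; ring
  have h2 : ((m - 1 : ℤ) : ℝ) * theta d j = m * theta d j - theta d j := by push_cast; ring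
  rw [h1, h2, sin_add, sin_sub]
  have h3 : cos (theta d j) = 1 - 2 * sin (theta d j / 2) ^ 2 := by
    have := cos_sq' (theta d j / 2)
    have h4 : cos (theta d j) = cos (2 * (theta d j / 2)) := by ring_nf
    rw [h4, cos_two_mul]
    nlinarith [sin_sq_add_cos_sq (theta d j / 2)]
  rw [h3]
  have h5 := lam_mul_sin_sq hd hj'
  unfold slam
  have h6 : lam d j * (2 * sin (theta d j / 2) ^ 2) = (1 / d) / 2 := by
    rw [← h5]; ring
  calc _ = (-1) ^ j * sin (m * theta d j) * (- 2 * (lam d j * (2 * sin (theta d j / 2) ^ 2))) := by ring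
    _ = _ := by rw [h6]; ring

lemma Bs_eq_zero {d : ℕ} (hd : 0 < d) {m : ℕ} (hm : m < d) : Bs d m = 0 := by
  have hd' : (0 : ℝ) < d := by positivity
  set δ : ℝ := m * π / (2 * d) with hδ
  have hcos : cos δ ≠ 0 := by
    apply ne_of_gt
    apply cos_pos_of_mem_Ioo
    have hm' : (m : ℝ) < d := by exact_mod_cast hm
    constructor
    · have : 0 ≤ δ := by rw [hδ]; positivity
      linarith [pi_pos]
    · rw [hδ, div_lt_iff₀ (by positivity)]
      nlinarith [pi_pos]
  have h1 : ∀ j : ℕ, (m : ℝ) * theta d j = (2 * j + 1) * δ := by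
    intro j
    unfold theta
    rw [hδ]
    field_simp
  have h2 : 2 * cos δ * Bs d m = 0 := by
    unfold Bs
    rw [Finset.mul_sum]
    have h3 : ∀ j ∈ range (2 * d), 2 * cos δ * ((-1) ^ j * sin (((m : ℤ) : ℝ) * theta d j))
        = (fun i : ℕ => (-1 : ℝ) ^ i * sin (2 * i * δ)) j
          - (fun i : ℕ => (-1 : ℝ) ^ i * sin (2 * i * δ)) (j + 1) := by
      intro j _
      simp only
      have h4 : (((m : ℤ) : ℝ)) * theta d j = (2 * j + 1) * δ := by
        rw [Int.cast_natCast]; exact h1 j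
      rw [h4]
      have h5 : 2 * ((j + 1 : ℕ) : ℝ) * δ = (2 * j + 1) * δ + δ := by push_cast; ring
      have h6 : 2 * (j : ℝ) * δ = (2 * j + 1) * δ - δ := by ring
      rw [h5, h6, sin_add, sin_sub, pow_succ]
      ring
    rw [Finset.sum_congr rfl h3, Finset.sum_range_sub']
    have h7 : 2 * ((2 * d : ℕ) : ℝ) * δ = m * (2 * π) := by
      rw [hδ]; push_cast; field_simp
    rw [h7]
    have h8 : sin ((m : ℝ) * (2 * π)) = 0 := by
      have h4 : (m : ℝ) * (2 * π) = ((2 * m : ℕ) : ℝ) * π := by push_cast; ring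
      rw [h4]; exact Real.sin_nat_mul_pi _
    rw [h8]
    simp
  have h9 : (2 : ℝ) * cos δ ≠ 0 := mul_ne_zero two_ne_zero hcos
  exact (mul_eq_zero.mp h2).resolve_left h9

lemma sin_d_theta {d : ℕ} (hd : 0 < d) (j : ℕ) : sin ((d : ℝ) * theta d j) = (-1) ^ j := by
  have hd' : (d : ℝ) ≠ 0 := by positivity
  have h : (d : ℝ) * theta d j = π / 2 + j * π := by
    unfold theta
    field_simp
    ring
  rw [h, sin_add, sin_pi_div_two, cos_pi_div_two]
  simp [Real.cos_nat_mul_pi]

lemma cos_d_theta {d : ℕ} (hd : 0 < d) (j : ℕ) : cos ((d : ℝ) * theta d j) = 0 := by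
  have hd' : (d : ℝ) ≠ 0 := by positivity
  have h : (d : ℝ) * theta d j = π / 2 + j * π := by
    unfold theta
    field_simp
    ring
  rw [h, cos_add, cos_pi_div_two, sin_pi_div_two]
  simp [Real.sin_nat_mul_pi]

lemma Bs_d {d : ℕ} (hd : 0 < d) : Bs d d = 2 * d := by
  unfold Bs
  have h : ∀ j ∈ range (2 * d), (-1 : ℝ) ^ j * sin (((d : ℤ) : ℝ) * theta d j) = 1 := by
    intro j _
    rw [Int.cast_natCast, sin_d_theta hd, ← mul_pow]
    simp
  rw [Finset.sum_congr rfl h]
  simp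

lemma Ss_succ_eq_pred {d : ℕ} (hd : 0 < d) : Ss d ((d : ℤ) + 1) = Ss d ((d : ℤ) - 1) := by
  unfold Ss
  apply Finset.sum_congr rfl
  intro j _
  have h1 : (((d : ℤ) + 1 : ℤ) : ℝ) * theta d j = d * theta d j + theta d j := by push_cast; ring
  have h2 : (((d : ℤ) - 1 : ℤ) : ℝ) * theta d j = d * theta d j - theta d j := by push_cast; ring
  rw [h1, h2, sin_add, sin_sub, cos_d_theta hd]
  ring

lemma Ss_zero (d : ℕ) : Ss d 0 = 0 := by
  unfold Ss
  simp

/-- `Ss` is linear on `0..d`. -/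
lemma Ss_linear {d : ℕ} (hd : 0 < d) : ∀ m : ℕ, m ≤ d → Ss d m = m * Ss d 1 := by
  intro m
  induction m using Nat.strong_induction_on with
  | _ m ih =>
    intro hm
    match m, ih, hm with
    | 0, _, _ => simp [Ss_zero]
    | 1, _, _ => simp
    | (k + 2), ih, hm =>
      have h1 := ih (k + 1) (by omega) (by omega)
      have h2 := ih k (by omega) (by omega)
      have h3 := second_diff hd ((k + 1 : ℕ) : ℤ)
      rw [Bs_eq_zero hd (by omega)] at h3
      have h4 : (((k + 1 : ℕ) : ℤ) + 1) = ((k + 2 : ℕ) : ℤ) := by push_cast; ring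
      have h5 : (((k + 1 : ℕ) : ℤ) - 1) = ((k : ℕ) : ℤ) := by push_cast; ring
      rw [h4, h5] at h3
      rw [h1, h2] at h3
      push_cast at h3 ⊢
      linarith

lemma Ss_one {d : ℕ} (hd : 0 < d) : Ss d 1 = 1 := by
  have h1 := Ss_linear hd d le_rfl
  obtain ⟨e, rfl⟩ : ∃ e, d = e + 1 := ⟨d - 1, by omega⟩
  have h2 := Ss_linear hd e (by omega)
  have h3 := second_diff hd ((e + 1 : ℕ) : ℤ)
  rw [Bs_d hd, Ss_succ_eq_pred hd] at h3
  have h5 : (((e + 1 : ℕ) : ℤ) - 1) = ((e : ℕ) : ℤ) := by push_cast; ring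
  rw [h5, h2, h1] at h3
  have hd' : (((e + 1 : ℕ)) : ℝ) ≠ 0 := by positivity
  have h6 : (1 / ((e + 1 : ℕ) : ℝ)) * (2 * ((e + 1 : ℕ) : ℝ)) = 2 := by
    field_simp
  have h7 : 2 * (e : ℝ) * Ss (e + 1) 1 - 2 * ((e + 1 : ℕ) : ℝ) * Ss (e + 1) 1 = -2 := by
    have : - (1 / ((e + 1 : ℕ) : ℝ)) * (2 * ((e + 1 : ℕ) : ℝ)) = -2 := by
      rw [neg_mul, h6]
    linarith
  push_cast at h7
  linarith

lemma Ss_eq {d : ℕ} (hd : 0 < d) (m : ℤ) (hm : |m| ≤ d) : Ss d m = m := by
  rcases le_total 0 m with h | h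
  · obtain ⟨k, rfl⟩ := Int.eq_ofNat_of_zero_le h
    have hk : k ≤ d := by
      have := (abs_le.mp hm).2
      exact_mod_cast this
    rw [Ss_linear hd k hk, Ss_one hd]
    simp
  · obtain ⟨k, hk⟩ := Int.eq_ofNat_of_zero_le (neg_nonneg.mpr h)
    have hk2 : k ≤ d := by
      have := (abs_le.mp hm).1
      omega
    have hm' : m = -(k : ℤ) := by omega
    rw [hm', Ss_neg, Ss_linear hd k hk2, Ss_one hd]
    simp

/-- The sum of the weights is `d`. -/
lemma sum_lam {d : ℕ} (hd : 0 < d) : ∑ j ∈ range (2 * d), lam d j = d := by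
  have h := Ss_eq hd (d : ℤ) (by simp)
  unfold Ss at h
  have h2 : ∀ j ∈ range (2 * d), slam d j * sin (((d : ℤ) : ℝ) * theta d j) = lam d j := by
    intro j _
    rw [Int.cast_natCast, sin_d_theta hd]
    unfold slam
    have : ((-1 : ℝ) ^ j) * (-1) ^ j = 1 := by rw [← mul_pow]; simp
    calc _ = ((-1 : ℝ) ^ j * (-1) ^ j) * lam d j := by ring
      _ = _ := by rw [this]; ring
  rw [Finset.sum_congr rfl h2] at h
  simpa using h

/-- Mixed sums with a power of the sine. -/
noncomputable def LC (d k : ℕ) (m : ℤ) : ℝ :=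
  ∑ j ∈ range (2 * d), slam d j * (sin (theta d j) ^ k * cos (m * theta d j))

noncomputable def LS (d k : ℕ) (m : ℤ) : ℝ :=
  ∑ j ∈ range (2 * d), slam d j * (sin (theta d j) ^ k * sin (m * theta d j))

lemma LC_succ (d k : ℕ) (m : ℤ) :
    LC d (k + 1) m = (LS d k (m + 1) - LS d k (m - 1)) / 2 := by
  unfold LC LS
  rw [← Finset.sum_sub_distrib, Finset.sum_div]
  apply Finset.sum_congr rfl
  intro j _
  have h1 : ((m + 1 : ℤ) : ℝ) * theta d j = m * theta d j + theta d j := by push_cast; ring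
  have h2 : ((m - 1 : ℤ) : ℝ) * theta d j = m * theta d j - theta d j := by push_cast; ring
  rw [h1, h2, sin_add, sin_sub, pow_succ]
  ring

lemma LS_succ (d k : ℕ) (m : ℤ) :
    LS d (k + 1) m = (LC d k (m - 1) - LC d k (m + 1)) / 2 := by
  unfold LC LS
  rw [← Finset.sum_sub_distrib, Finset.sum_div]
  apply Finset.sum_congr rfl
  intro j _
  have h1 : ((m + 1 : ℤ) : ℝ) * theta d j = m * theta d j + theta d j := by push_cast; ring
  have h2 : ((m - 1 : ℤ) : ℝ) * theta d j = m * theta d j - theta d j := by push_cast; ring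
  rw [h1, h2, cos_add, cos_sub, pow_succ]
  ring

lemma LC_zero {d : ℕ} (hd : 0 < d) (m : ℤ) : LC d 0 m = 0 := by
  have := Sc_eq_zero hd m
  unfold LC; unfold Sc at this
  simpa using this

lemma LS_zero {d : ℕ} (hd : 0 < d) (m : ℤ) (hm : |m| ≤ d) : LS d 0 m = m := by
  have := Ss_eq hd m hm
  unfold LS; unfold Ss at this
  simpa using this

lemma L_one {d : ℕ} (hd : 0 < d) (m : ℤ) (hm : |m| + 1 ≤ d) : LC d 1 m = 1 ∧ LS d 1 m = 0 := by
  have h1 : |m + 1| ≤ d := (abs_add_le _ _).trans (by simpa using hm)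
  have h2 : |m - 1| ≤ d := (abs_sub _ _).trans (by simpa using hm)
  constructor
  · rw [LC_succ d 0 m, LS_zero hd _ h1, LS_zero hd _ h2]
    push_cast; ring
  · rw [LS_succ d 0 m, LC_zero hd, LC_zero hd]
    simp

lemma L_ge_two {d : ℕ} (hd : 0 < d) : ∀ k : ℕ, ∀ m : ℤ, |m| + (k + 2 : ℕ) ≤ d →
    LC d (k + 2) m = 0 ∧ LS d (k + 2) m = 0 := by
  intro k
  induction k with
  | zero =>
    intro m hm
    have h1 : |m + 1| + 1 ≤ d := by
      have := abs_add_le m 1
      simp at this hm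
      linarith
    have h2 : |m - 1| + 1 ≤ d := by
      have := abs_sub m 1
      simp at this hm
      linarith
    constructor
    · rw [LC_succ d 1 m, (L_one hd _ h1).2, (L_one hd _ h2).2]
      simp
    · rw [LS_succ d 1 m, (L_one hd _ h1).1, (L_one hd _ h2).1]
      simp
  | succ k ih =>
    intro m hm
    have h1 : |m + 1| + ((k + 2 : ℕ) : ℤ) ≤ d := by
      have := abs_add_le m 1
      push_cast at hm ⊢
      simp at this
      linarith
    have h2 : |m - 1| + ((k + 2 : ℕ) : ℤ) ≤ d := by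
      have := abs_sub m 1
      push_cast at hm ⊢
      simp at this
      linarith
    constructor
    · rw [LC_succ d (k + 2) m, (ih _ h1).2, (ih _ h2).2]
      simp
    · rw [LS_succ d (k + 2) m, (ih _ h1).1, (ih _ h2).1]
      simp

/-- Riesz' interpolation on powers of the sine: the alternating weighted sum of `sin^k` at the
nodes is the derivative of `t^k` at zero. -/
theorem riesz_pow {d : ℕ} (hd : 0 < d) {k : ℕ} (hk : k ≤ d) :
    ∑ j ∈ range (2 * d), slam d j * sin (theta d j) ^ k = if k = 1 then 1 else 0 := by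
  have h0 : ∑ j ∈ range (2 * d), slam d j * sin (theta d j) ^ k = LC d k 0 := by
    unfold LC
    simp
  rw [h0]
  match k, hk with
  | 0, _ => simp [LC_zero hd]
  | 1, hk =>
    have := (L_one hd 0 (by simpa using hk)).1
    simpa using this
  | (k + 2), hk =>
    have := (L_ge_two hd k 0 (by simp; exact_mod_cast hk)).1
    rw [this]
    simp

end Vale.Agent.Lib.P047
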