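import Vale.Agent.Lib.P047.Key
import Vale.Agent.Lib.P047.Riesz
import Vale.Agent.Lib.P047.Odds

namespace Vale.Agent.Lib.P047

open Finset Real

variable {n : ℕ}

lemma sum_card_one (g : Finset (Fin n) → ℝ) :
    ∑ T : Finset (Fin n), (if T.card = 1 then g T else 0) = ∑ i, g {i} := by
  classical
  rw [← Finset.sum_filter]
  symm
  apply Finset.sum_bij (fun i _ => ({i} : Finset (Fin n)))
  · intro i _; simp
  · intro i _ j _ h; exact Finset.singleton_inj.mp h
  · intro T hT
    simp only [mem_filter, mem_univ, true_and] at hT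
    obtain ⟨i, rfl⟩ := Finset.card_eq_one.mp hT
    exact ⟨i, Finset.mem_univ _, rfl⟩
  · intro i _; rfl

lemma riesz_qpoly {f : (Fin n → Bool) → ℝ} {d : ℕ} (hd : 0 < d) (hdeg : DegreeLE f d) :
    ∑ j ∈ range (2 * d), slam d j * qpoly f (sin (theta d j)) = ∑ i, fhat f {i} := by
  classical
  unfold qpoly
  simp_rw [Finset.mul_sum]
  rw [Finset.sum_comm, ← sum_card_one (fun T => fhat f T)]
  apply Finset.sum_congr rfl
  intro T _
  by_cases hT : T.card ≤ d
  · have h := riesz_pow hd hT
    have h2 : ∀ j ∈ range (2 * d), slam d j * (fhat f T * sin (theta d j) ^ T.card)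
        = fhat f T * (slam d j * sin (theta d j) ^ T.card) := by
      intro j _; ring
    rw [Finset.sum_congr rfl h2, ← Finset.mul_sum, h]
    split_ifs <;> simp
  · have h0 : fhat f T = 0 := hdeg T (not_le.mp hT)
    simp [h0]

/-- Constant functions have vanishing first level. -/
lemma fhat_const_singleton (c : ℝ) (i : Fin n) :
    fhat (fun _ : Fin n → Bool => c) {i} = 0 := by
  classical
  unfold fhat chi
  have h : ∑ x : Fin n → Bool, c * ∏ j ∈ ({i} : Finset (Fin n)), sgn (x j) = 0 := by
    rw [← Finset.mul_sum]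
    have h2 : ∀ x : Fin n → Bool, ∏ j ∈ ({i} : Finset (Fin n)), sgn (x j)
        = ∏ j, (if j ∈ ({i} : Finset (Fin n)) then sgn (x j) else 1) := fun x => prod_mem_eq _ _
    simp_rw [h2]
    rw [sum_prod_cube (fun j b => if j ∈ ({i} : Finset (Fin n)) then sgn b else 1)]
    have : ∏ j : Fin n, ((if j ∈ ({i} : Finset (Fin n)) then sgn true else 1)
        + (if j ∈ ({i} : Finset (Fin n)) then sgn false else 1)) = 0 := by
      apply Finset.prod_eq_zero (Finset.mem_univ i)
      simp [sgn]
    rw [this]; simp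
  rw [h]; simp

lemma sin_node_zero {d : ℕ} : theta d 0 = π / (2 * d) := by
  unfold theta; simp

lemma sin_node_last {d : ℕ} (hd : 0 < d) : sin (theta d (2 * d - 1)) = - sin (π / (2 * d)) := by
  have h := theta_reflect hd (j := 0) (by omega)
  simp only [Nat.sub_zero] at h
  rw [h, sin_node_zero, sin_two_pi_sub]

lemma slam_zero (d : ℕ) : slam d 0 = lam d 0 := by
  unfold slam; simp

lemma slam_last {d : ℕ} (hd : 0 < d) : slam d (2 * d - 1) = - lam d 0 := by
  have h := slam_reflect hd (j := 0) (by omega)
  simp only [Nat.sub_zero] at h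
  rw [h, slam_zero]

lemma abs_slam (d j : ℕ) : |slam d j| = |lam d j| := by
  unfold slam
  rw [abs_mul, abs_pow, abs_neg, abs_one, one_pow, one_mul]

/-- Lower bound for the first weight. -/
lemma lam_zero_ge {d : ℕ} (hd : 0 < d) : 2 / 5 * (d : ℝ) ≤ lam d 0 := by
  have hd' : (0 : ℝ) < d := by positivity
  unfold lam
  rw [sin_node_zero]
  have hx : π / (2 * d) / 2 = π / (4 * d) := by
    field_simp; ring
  rw [hx]
  have hx0 : 0 < π / (4 * d) := by positivity
  have h1 : sin (π / (4 * d)) ≤ π / (4 * d) := sin_le hx0.le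
  have h2 : 0 < sin (π / (4 * d)) := by
    apply sin_pos_of_pos_of_lt_pi hx0
    rw [div_lt_iff₀ (by positivity)]
    have : (1 : ℝ) ≤ d := by exact_mod_cast hd
    nlinarith [pi_pos]
  have h3 : sin (π / (4 * d)) ^ 2 ≤ (π / (4 * d)) ^ 2 := by
    apply pow_le_pow_left₀ h2.le h1
  have h4 : π ^ 2 ≤ 10 := by
    have := pi_lt_d4
    have h5 := pi_pos
    nlinarith
  rw [le_div_iff₀ (by positivity)]
  have h6 : 2 / 5 * (d : ℝ) * (4 * d * (π / (4 * d)) ^ 2) = π ^ 2 / 10 := by
    field_simp
    ring
  calc 2 / 5 * (d : ℝ) * (4 * d * sin (π / (4 * d)) ^ 2)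
      ≤ 2 / 5 * (d : ℝ) * (4 * d * (π / (4 * d)) ^ 2) := by
        apply mul_le_mul_of_nonneg_left _ (by positivity)
        apply mul_le_mul_of_nonneg_left h3 (by positivity)
    _ = π ^ 2 / 10 := h6
    _ ≤ 1 := by linarith

/-- Numerical bound on `((1+s)/(1-s))^d` with `s = sin(π/(2d))`. -/
lemma Q_le {d : ℕ} (hd : 2 ≤ d) :
    ((1 + sin (π / (2 * d))) / (1 - sin (π / (2 * d)))) ^ d ≤ 39 := by
  have hd' : (0 : ℝ) < d := by positivity
  have hd2 : (2 : ℝ) ≤ d := by exact_mod_cast hd
  set x : ℝ := π / (2 * d) with hx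
  have hx0 : 0 < x := by rw [hx]; positivity
  have hpi1 := pi_lt_d4
  have hpi2 := pi_gt_d4
  have hs0 : 0 < sin x := by
    apply sin_pos_of_pos_of_lt_pi hx0
    rw [hx, div_lt_iff₀ (by positivity)]
    nlinarith [pi_pos]
  -- reduce to an upper bound on `s`
  have red : ∀ y : ℝ, sin x ≤ y → y < 1 → ((1 + y) / (1 - y)) ^ d ≤ 39 →
      ((1 + sin x) / (1 - sin x)) ^ d ≤ 39 := by
    intro y hy hy1 h39
    refine le_trans ?_ h39
    apply pow_le_pow_left₀
    · apply div_nonneg <;> linarith
    · rw [div_le_div_iff₀ (by linarith) (by linarith)]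
      nlinarith
  by_cases hd7 : d ≤ 6
  · interval_cases d
    · -- d = 2
      have hx2 : x = π / 4 := by rw [hx]; norm_num
      have hsin : sin x = √2 / 2 := by rw [hx2, sin_pi_div_four]
      have hsq : √2 ≤ 1.41422 := by
        rw [show (1.41422 : ℝ) = √(1.41422 ^ 2) from (Real.sqrt_sq (by norm_num)).symm]
        apply Real.sqrt_le_sqrt
        norm_num
      apply red 0.70711 (by rw [hsin]; linarith) (by norm_num)
      norm_num
    · apply red (3.1416 / 6) (by
        refine (sin_le hx0.le).trans ?_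
        rw [hx]; push_cast; linarith) (by norm_num)
      norm_num
    · apply red (3.1416 / 8) (by
        refine (sin_le hx0.le).trans ?_
        rw [hx]; push_cast; linarith) (by norm_num)
      norm_num
    · apply red (3.1416 / 10) (by
        refine (sin_le hx0.le).trans ?_
        rw [hx]; push_cast; linarith) (by norm_num)
      norm_num
    · apply red (3.1416 / 12) (by
        refine (sin_le hx0.le).trans ?_
        rw [hx]; push_cast; linarith) (by norm_num)
      norm_num
  · -- d ≥ 7
    have hd7' : (7 : ℝ) ≤ d := by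
      have : 7 ≤ d := by omega
      exact_mod_cast this
    have hxle : x ≤ 0.2245 := by
      rw [hx, div_le_iff₀ (by positivity)]
      nlinarith
    have hsle : sin x ≤ x := sin_le hx0.le
    have hone : 0 < 1 - x := by linarith
    refine red x hsle (by linarith) ?_
    have hdx : (d : ℝ) * x = π / 2 := by
      rw [hx]; field_simp
    have h1 : (1 + x) / (1 - x) ≤ exp (x + x / (1 - x)) := by
      rw [exp_add]
      have e1 : 1 + x ≤ exp x := by linarith [add_one_le_exp x]
      have e2 : 1 / (1 - x) ≤ exp (x / (1 - x)) := by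
        have := add_one_le_exp (x / (1 - x))
        have e3 : x / (1 - x) + 1 = 1 / (1 - x) := by
          field_simp; ring
        linarith
      calc (1 + x) / (1 - x) = (1 + x) * (1 / (1 - x)) := by ring
        _ ≤ exp x * exp (x / (1 - x)) := by
          apply mul_le_mul e1 e2 (by positivity) (exp_pos _).le
    have h2 : ((1 + x) / (1 - x)) ^ d ≤ exp (3.6) := by
      calc ((1 + x) / (1 - x)) ^ d ≤ (exp (x + x / (1 - x))) ^ d := by
            apply pow_le_pow_left₀ _ h1
            apply div_nonneg <;> linarith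
        _ = exp ((d : ℝ) * (x + x / (1 - x))) := by rw [← exp_nat_mul]
        _ ≤ exp (3.6) := by
            apply exp_le_exp.mpr
            have e4 : (d : ℝ) * (x + x / (1 - x)) = π / 2 * (1 + 1 / (1 - x)) := by
              rw [← hdx]; field_simp
            rw [e4]
            have e5 : 1 / (1 - x) ≤ 1.2895 := by
              rw [div_le_iff₀ hone]
              nlinarith
            nlinarith
    refine h2.trans ?_
    -- exp 3.6 ≤ 39
    have h3 : exp 3.6 ^ 5 ≤ 39 ^ 5 := by
      rw [← exp_nat_mul]
      have e6 : ((5 : ℕ) : ℝ) * 3.6 = ((18 : ℕ) : ℝ) * 1 := by norm_num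
      rw [e6, exp_nat_mul]
      have e7 := exp_one_lt_d9
      have e8 : exp 1 ^ 18 ≤ (2.7182818286 : ℝ) ^ 18 :=
        pow_le_pow_left₀ (exp_pos 1).le e7.le 18
      refine e8.trans ?_
      norm_num
    exact le_of_pow_le_pow_left₀ (by norm_num) (by norm_num) h3

/-- The main bound for the signed level-one sum. -/
theorem sum_fhat_le {f : (Fin n → Bool) → ℝ} {d : ℕ} (hd : 2 ≤ d)
    (hb : IsBooleanFn f) (hdeg : DegreeLE f d) :
    ∑ i, fhat f {i} ≤ 24 / 25 * (d : ℝ) := by
  classical
  have hd0 : 0 < d := by omega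
  have hd' : (0 : ℝ) < d := by positivity
  by_cases hconst : ∃ c : ℝ, ∀ x, f x = c
  · obtain ⟨c, hc⟩ := hconst
    have : f = fun _ => c := funext hc
    rw [this]
    simp only [fhat_const_singleton, Finset.sum_const_zero]
    positivity
  · -- strict bound on `q`
    have hstrict : ∀ t : ℝ, |t| < 1 → -1 < qpoly f t ∧ qpoly f t < 1 := by
      intro t ht
      have h1 := qpoly_sq_le_one hb ht.le
      have h2 : qpoly f t ^ 2 ≠ 1 := by
        intro h
        exact hconst ⟨qpoly f t, const_of_qpoly_sq hb ht h⟩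
      have h3 : qpoly f t ^ 2 < 1 := lt_of_le_of_ne h1 h2
      constructor <;> nlinarith
    set s : ℝ := sin (π / (2 * d)) with hs
    have hx0 : 0 < π / (2 * d) := by positivity
    have hxlt : π / (2 * d) < π / 2 := by
      apply div_lt_div_of_pos_left pi_pos (by norm_num)
      have : (2 : ℝ) ≤ d := by exact_mod_cast hd
      linarith
    have hs0 : 0 < s := sin_pos_of_pos_of_lt_pi hx0 (by linarith [pi_pos])
    have hs1 : s < 1 := by
      rw [hs, ← sin_pi_div_two]
      apply sin_lt_sin_of_lt_of_le_pi_div_two (by linarith [pi_pos]) le_rfl hxlt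
    -- the log-odds bound
    have hodds := odds_bound (q := qpoly f) (q' := dqpoly f) (d := d) hs0 hs1
      (fun t => hasDerivAt_qpoly f t)
      (fun t ht => hstrict t (abs_lt.mpr ⟨by linarith [ht.1], by linarith [ht.2]⟩))
      (fun t ht => key_ineq hb hdeg (abs_le.mpr ⟨by linarith [ht.1], by linarith [ht.2]⟩))
    set Q : ℝ := ((1 + s) / (1 - s)) ^ d with hQ
    have hQ1 : 1 ≤ Q := by
      rw [hQ]
      apply one_le_pow₀
      rw [one_le_div (by linarith)]; linarith
    have hQ39 : Q ≤ 39 := Q_le hd
    -- Riesz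
    rw [← riesz_qpoly hd0 hdeg]
    set y : ℕ → ℝ := fun j => qpoly f (sin (theta d j)) with hy
    have hyabs : ∀ j, |y j| ≤ 1 := by
      intro j
      have h1 := qpoly_sq_le_one hb (abs_sin_le_one (theta d j))
      exact abs_le_one_iff_mul_self_le_one.mpr (by simpa [hy, sq] using h1)
    have hmem0 : 0 ∈ range (2 * d) := by simp; omega
    have hmemL : 2 * d - 1 ∈ (range (2 * d)).erase 0 := by
      simp; omega
    have hsplit : ∑ j ∈ range (2 * d), slam d j * y j
        = slam d 0 * y 0 + (slam d (2 * d - 1) * y (2 * d - 1)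
          + ∑ j ∈ ((range (2 * d)).erase 0).erase (2 * d - 1), slam d j * y j) := by
      rw [Finset.add_sum_erase _ (fun j => slam d j * y j) hmemL,
        Finset.add_sum_erase _ (fun j => slam d j * y j) hmem0]
    have hlamsplit : (d : ℝ) = lam d 0 + (lam d (2 * d - 1)
          + ∑ j ∈ ((range (2 * d)).erase 0).erase (2 * d - 1), lam d j) := by
      rw [Finset.add_sum_erase _ (fun j => lam d j) hmemL,
        Finset.add_sum_erase _ (fun j => lam d j) hmem0, sum_lam hd0]
    have hlamlast : lam d (2 * d - 1) = lam d 0 := by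
      have := lam_reflect hd0 (j := 0) (by omega)
      simpa using this
    have hrest : ∑ j ∈ ((range (2 * d)).erase 0).erase (2 * d - 1), slam d j * y j
        ≤ ∑ j ∈ ((range (2 * d)).erase 0).erase (2 * d - 1), lam d j := by
      apply Finset.sum_le_sum
      intro j hj
      have hj' : j < 2 * d := by
        have := Finset.mem_of_mem_erase (Finset.mem_of_mem_erase hj)
        exact Finset.mem_range.mp this
      have hl := lam_pos hd0 hj'
      calc slam d j * y j ≤ |slam d j * y j| := le_abs_self _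
        _ = |lam d j| * |y j| := by rw [abs_mul, abs_slam]
        _ ≤ |lam d j| * 1 := by
          apply mul_le_mul_of_nonneg_left (hyabs j) (abs_nonneg _)
        _ = lam d j := by rw [mul_one, abs_of_pos hl]
    have hy0 : y 0 = qpoly f s := by
      simp only [hy]; rw [sin_node_zero]
    have hyL : y (2 * d - 1) = qpoly f (-s) := by
      simp only [hy]; rw [sin_node_last hd0]
    rw [hsplit, slam_zero, slam_last hd0, hy0, hyL]
    have hlam0 := lam_zero_ge hd0
    have hlam0pos : 0 < lam d 0 := lam_pos hd0 (by omega)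
    -- combine
    have hQpos : 0 < Q + 1 := by linarith
    have hdiff : qpoly f s - qpoly f (-s) ≤ 2 - 4 / (Q + 1) := by
      have e : 2 - 4 / (Q + 1) = 2 * (Q - 1) / (Q + 1) := by
        field_simp; ring
      rw [e, le_div_iff₀ hQpos]
      exact hodds
    have h4 : 1 / 10 ≤ 4 / (Q + 1) := by
      rw [div_le_div_iff₀ (by norm_num) hQpos]
      linarith
    have h5 : lam d 0 * (qpoly f s - qpoly f (-s)) ≤ lam d 0 * (2 - 1 / 10) := by
      apply mul_le_mul_of_nonneg_left _ hlam0pos.le
      linarith
    have h6 : ∑ j ∈ ((range (2 * d)).erase 0).erase (2 * d - 1), lam d j = d - 2 * lam d 0 := by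
      linarith
    calc lam d 0 * qpoly f s + (- lam d 0 * qpoly f (-s)
          + ∑ j ∈ ((range (2 * d)).erase 0).erase (2 * d - 1), slam d j * y j)
        ≤ lam d 0 * (2 - 1 / 10) + (d - 2 * lam d 0) := by
          rw [← h6]
          nlinarith
      _ = d - lam d 0 / 10 := by ring
      _ ≤ 24 / 25 * (d : ℝ) := by linarith

/-- Coordinatewise flip of the cube. -/
def flipc (b x : Fin n → Bool) : Fin n → Bool := fun i => (b i == x i)

lemma flipc_flipc (b x : Fin n → Bool) : flipc b (flipc b x) = x := by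
  funext i
  unfold flipc
  cases b i <;> cases x i <;> rfl

lemma sgn_beq (a b : Bool) : sgn (a == b) = sgn a * sgn b := by
  cases a <;> cases b <;> simp [sgn]

lemma chi_flipc (S : Finset (Fin n)) (b x : Fin n → Bool) :
    chi S (flipc b x) = chi S b * chi S x := by
  unfold chi flipc
  rw [← Finset.prod_mul_distrib]
  apply Finset.prod_congr rfl
  intro i _
  exact sgn_beq _ _

lemma chi_mul_self (S : Finset (Fin n)) (b : Fin n → Bool) : chi S b * chi S b = 1 := by
  unfold chi
  rw [← Finset.prod_mul_distrib]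
  apply Finset.prod_eq_one
  intro i _
  exact sgn_mul_self _

lemma fhat_flip (f : (Fin n → Bool) → ℝ) (b : Fin n → Bool) (S : Finset (Fin n)) :
    fhat (fun x => f (flipc b x)) S = chi S b * fhat f S := by
  unfold fhat
  rw [mul_div_assoc', Finset.mul_sum]
  congr 1
  apply Finset.sum_nbij' (flipc b) (flipc b)
  · intro x _; exact Finset.mem_univ _
  · intro x _; exact Finset.mem_univ _
  · intro x _; exact flipc_flipc b x
  · intro x _; exact flipc_flipc b x
  · intro x _
    have h1 : chi S x = chi S b * chi S (flipc b x) := by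
      rw [chi_flipc, ← mul_assoc, chi_mul_self, one_mul]
    rw [h1]
    ring

/-- The main bound, in absolute-value form. -/
theorem sum_abs_fhat_le {f : (Fin n → Bool) → ℝ} {d : ℕ} (hd : 2 ≤ d)
    (hb : IsBooleanFn f) (hdeg : DegreeLE f d) :
    ∑ i, |fhat f {i}| ≤ 24 / 25 * (d : ℝ) := by
  classical
  set b : Fin n → Bool := fun i => decide (0 ≤ fhat f {i}) with hbdef
  have hg1 : IsBooleanFn (fun x => f (flipc b x)) := fun x => hb _
  have hg2 : DegreeLE (fun x => f (flipc b x)) d := by
    intro S hS
    rw [fhat_flip, hdeg S hS, mul_zero]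
  have h := sum_fhat_le hd hg1 hg2
  have h2 : ∀ i, fhat (fun x => f (flipc b x)) {i} = |fhat f {i}| := by
    intro i
    rw [fhat_flip]
    unfold chi
    rw [Finset.prod_singleton]
    by_cases h0 : 0 ≤ fhat f {i}
    · have : b i = true := by simp [hbdef, h0]
      rw [this, sgn_true, one_mul, abs_of_nonneg h0]
    · have : b i = false := by simp [hbdef, h0]
      rw [this, sgn_false, abs_of_neg (not_le.mp h0)]
      ring
  simp_rw [h2] at h
  exact h

end Vale.Agent.Lib.P047
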